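import Mathlib

/-!
P337, real side: determinants of multiplications on modules over real algebras.
-/

namespace Vale.Agent.P337

/-- the determinant of the multiplication by `h` on a residue field -/
theorem detMod_field {A : Type} [CommRing A] [Algebra ℝ A] [Module.Finite ℝ A] (h : A)
    (hpos : ∀ φ : A →ₐ[ℝ] ℝ, 0 ≤ φ h) (I : Ideal A) [hI : I.IsMaximal] :
    0 ≤ Algebra.norm ℝ (Ideal.Quotient.mk I h) := by
  let _ : Field (A ⧸ I) := Ideal.Quotient.field I
  have : Module.Finite ℝ (A ⧸ I) := inferInstance
  have : Algebra.IsAlgebraic ℝ (A ⧸ I) := inferInstance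
  rcases Real.nonempty_algEquiv_or (A ⧸ I) with ⟨⟨e⟩⟩ | ⟨⟨e⟩⟩
  · rw [← Algebra.norm_eq_of_algEquiv e, Algebra.norm_self]
    exact hpos ((e : (A ⧸ I) →ₐ[ℝ] ℝ).comp (Ideal.Quotient.mkₐ ℝ I))
  · rw [← Algebra.norm_eq_of_algEquiv e, Algebra.norm_complex_apply]
    exact Complex.normSq_nonneg _

theorem detMod_conj {A : Type} [CommRing A] [Algebra ℝ A] (h : A) {V W : Type} [AddCommGroup V]
    [Module ℝ V] [Module A V] [IsScalarTower ℝ A V] [AddCommGroup W]
    [Module ℝ W] [Module A W] [IsScalarTower ℝ A W] (e : V ≃ₗ[ℝ] W)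
    (he : ∀ v, e (h • v) = h • e v) :
    LinearMap.det (LinearMap.restrictScalars ℝ (LinearMap.lsmul A V h)) =
      LinearMap.det (LinearMap.restrictScalars ℝ (LinearMap.lsmul A W h)) := by
  rw [← LinearMap.det_conj _ e]
  congr 1
  ext w
  simp [he]

/-- module version: a commutative real algebra acting on a finite dimensional space -/
theorem det_nonneg_of_module {A : Type} [CommRing A] [Algebra ℝ A] [Module.Finite ℝ A] (h : A)
    (hpos : ∀ φ : A →ₐ[ℝ] ℝ, 0 ≤ φ h) (n : ℕ) :
    ∀ (V : Type) [AddCommGroup V] [Module ℝ V] [Module A V] [IsScalarTower ℝ A V]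
      [Module.Finite ℝ V], Module.finrank ℝ V ≤ n →
      0 ≤ LinearMap.det (LinearMap.restrictScalars ℝ (LinearMap.lsmul A V h)) := by
  induction n with
  | zero =>
    intro V _ _ _ _ _ hV
    have h0 : Module.finrank ℝ V = 0 := Nat.le_zero.1 hV
    rw [LinearMap.det_eq_one_of_finrank_eq_zero h0]
    exact zero_le_one
  | succ n ih =>
    intro V _ _ _ _ _ hV
    by_cases hnt : Subsingleton V
    · have h0 : Module.finrank ℝ V = 0 := Module.finrank_zero_of_subsingleton
      rw [LinearMap.det_eq_one_of_finrank_eq_zero h0]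
      exact zero_le_one
    rw [not_subsingleton_iff_nontrivial] at hnt
    by_cases hs : ∀ W : Submodule A V, W = ⊥ ∨ W = ⊤
    · have : IsSimpleModule A V := by
        rw [isSimpleModule_iff]
        exact { eq_bot_or_eq_top := hs }
      obtain ⟨I, hI, ⟨e⟩⟩ := (isSimpleModule_iff_quot_maximal (R := A) (M := V)).1 this
      rw [detMod_conj h (W := A ⧸ I) (e.restrictScalars ℝ) (fun v => e.map_smul h v)]
      have h1 : LinearMap.restrictScalars ℝ (LinearMap.lsmul A (A ⧸ I) h) =
          Algebra.lmul ℝ (A ⧸ I) (Ideal.Quotient.mk I h) := by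
        ext w
        obtain ⟨w, rfl⟩ := Ideal.Quotient.mk_surjective w
        simp only [LinearMap.restrictScalars_apply, LinearMap.lsmul_apply, Algebra.coe_lmul_eq_mul,
          LinearMap.mul_apply']
        rfl
      rw [h1, ← Algebra.norm_apply]
      exact detMod_field h hpos I
    · push Not at hs
      obtain ⟨W, hW0, hW1⟩ := hs
      have hrank : Module.finrank ℝ (W.restrictScalars ℝ) < Module.finrank ℝ V := by
        apply Submodule.finrank_lt
        rwa [ne_eq, Submodule.restrictScalars_eq_top_iff]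
      have hpos' : 0 < Module.finrank ℝ (W.restrictScalars ℝ) := by
        rw [Module.finrank_pos_iff, Submodule.nontrivial_iff_ne_bot, ne_eq,
          Submodule.restrictScalars_eq_bot_iff]
        exact hW0
      have hq := Submodule.finrank_quotient_add_finrank (W.restrictScalars ℝ)
      have he : W.restrictScalars ℝ ≤
          (W.restrictScalars ℝ).comap (LinearMap.restrictScalars ℝ (LinearMap.lsmul A V h)) := by
        intro v hv
        exact W.smul_mem h hv
      rw [LinearMap.det_eq_det_mul_det (W.restrictScalars ℝ) _ he]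
      apply mul_nonneg
      · have h1 := ih (W.restrictScalars ℝ) (by omega)
        have h2 : (LinearMap.restrictScalars ℝ (LinearMap.lsmul A V h)).restrict he =
            LinearMap.restrictScalars ℝ (LinearMap.lsmul A (W.restrictScalars ℝ) h) := by
          ext w
          rfl
        rw [h2]
        exact h1
      · let e : (V ⧸ W.restrictScalars ℝ) ≃ₗ[ℝ] (V ⧸ W) :=
          Submodule.Quotient.restrictScalarsEquiv ℝ W
        have : Module.Finite ℝ (V ⧸ W) := Module.Finite.equiv e
        have h1 := ih (V ⧸ W) (by rw [← e.finrank_eq]; omega)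
        rw [← LinearMap.det_conj _ e]
        have h2 : (e : (V ⧸ W.restrictScalars ℝ) →ₗ[ℝ] (V ⧸ W)) ∘ₗ
            ((W.restrictScalars ℝ).mapQ (W.restrictScalars ℝ)
              (LinearMap.restrictScalars ℝ (LinearMap.lsmul A V h)) he) ∘ₗ
              (e.symm : (V ⧸ W) →ₗ[ℝ] (V ⧸ W.restrictScalars ℝ)) =
            LinearMap.restrictScalars ℝ (LinearMap.lsmul A (V ⧸ W) h) := by
          apply LinearMap.ext
          intro w
          obtain ⟨w, rfl⟩ := Submodule.Quotient.mk_surjective W w
          rfl
        rw [h2]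
        exact h1

end Vale.Agent.P337
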