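import Mathlib
import Vale.Agent.Lib.P337.Real.DetModule
import Vale.Agent.Lib.P337.Alg.Mmat

/-!
P337, real side: the determinant of a multiplication is nonnegative if the element is
nonnegative at the real points.
-/

namespace Vale.Agent.P337

open MvPolynomial

theorem mmat_det_nonneg {N d : ℕ} (hd : 1 ≤ d) {H : Fin N → MvPolynomial (Fin N) ℝ}
    (hH : ∀ i, (H i).totalDegree < d) (h : MvPolynomial (Fin N) ℝ)
    (hpos : ∀ ξ : Fin N → ℝ, (∀ i, eval ξ (Fs d H i) = 0) → 0 ≤ eval ξ h) :
    0 ≤ (mmat hd hH h).det := by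
  have hfin : Module.Finite ℝ (QA d H) := Module.Finite.of_basis (bas hd hH)
  have h1 : ∀ φ : QA d H →ₐ[ℝ] ℝ, 0 ≤ φ (qmk d H h) := by
    intro φ
    have h2 : ∀ p : MvPolynomial (Fin N) ℝ,
        φ (qmk d H p) = eval (fun i => φ (qmk d H (X i))) p := by
      intro p
      have h3 : φ.comp (qmk d H) = aeval (fun i => φ (qmk d H (X i))) := by
        apply MvPolynomial.algHom_ext
        intro i
        simp
      have h4 := DFunLike.congr_fun h3 p
      rw [AlgHom.comp_apply] at h4
      rw [h4]
      exact congrFun (congrArg DFunLike.coe (coe_aeval_eq_eval _)) p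
    rw [h2]
    apply hpos
    intro i
    rw [← h2]
    have h3 : qmk d H (Fs d H i) = 0 := by
      apply Ideal.Quotient.eq_zero_iff_mem.2
      exact Ideal.subset_span ⟨i, rfl⟩
    rw [h3, map_zero]
  have h5 := det_nonneg_of_module (qmk d H h) h1 (Module.finrank ℝ (QA d H)) (QA d H) le_rfl
  have h6 : LinearMap.restrictScalars ℝ (LinearMap.lsmul (QA d H) (QA d H) (qmk d H h)) =
      Algebra.lmul ℝ (QA d H) (qmk d H h) := by
    apply LinearMap.ext
    intro w
    rfl
  rw [h6, ← Algebra.norm_apply, Algebra.norm_eq_matrix_det (bas hd hH)] at h5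
  exact h5

end Vale.Agent.P337
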