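import Mathlib
import Vale.Agent.Lib.P337.Alg.NrmB

/-!
P337, real side: the gradient system of `g = 2 e L p + ∑ x_i ^ (2 e) + 2 e ∑ b_i x_i`.
-/

namespace Vale.Agent.P337

open MvPolynomial

variable {N : ℕ} {R : Type} [CommRing R]

/-- right hand sides of the gradient system `x_i ^ (2 e - 1) = H_i` -/
noncomputable def gH (L : R) (b : Fin N → R) (p : MvPolynomial (Fin N) R) (i : Fin N) :
    MvPolynomial (Fin N) R := -(C L * pderiv i p) - C (b i)

/-- the perturbed function -/
noncomputable def gG (e : ℕ) (L : R) (b : Fin N → R) (p : MvPolynomial (Fin N) R) :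
    MvPolynomial (Fin N) R :=
  C (2 * (e : R) * L) * p + ∑ i, X i ^ (2 * e) + ∑ i, C (2 * (e : R) * b i) * X i

private theorem System_pderiv_degree (p : MvPolynomial (Fin N) R) (i : Fin N) :
    (pderiv i p).totalDegree ≤ p.totalDegree - 1 := by
  unfold totalDegree
  refine Finset.sup_le fun m hm => ?_
  rw [mem_support_iff, coeff_pderiv] at hm
  have h1 : m + Finsupp.single i 1 ∈ p.support := by
    rw [mem_support_iff]
    intro h0
    rw [h0, zero_mul] at hm
    exact hm rfl
  have h2 := le_totalDegree h1
  have h3 : ((m + Finsupp.single i 1).sum fun _ e => e) = (m.sum fun _ e => e) + 1 := by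
    rw [Finsupp.sum_add_index' (fun _ => rfl) (fun _ _ _ => rfl), Finsupp.sum_single_index rfl]
  rw [h3] at h2
  unfold totalDegree at h2
  omega

theorem gH_totalDegree {e : ℕ} (he : 2 ≤ e) (L : R) (b : Fin N → R)
    {p : MvPolynomial (Fin N) R} (hp : p.totalDegree < 2 * e) (i : Fin N) :
    (gH L b p i).totalDegree < 2 * e - 1 := by
  unfold gH
  have h1 : (C L * pderiv i p).totalDegree ≤ p.totalDegree - 1 := by
    refine (totalDegree_mul _ _).trans ?_
    rw [totalDegree_C, zero_add]
    exact System_pderiv_degree p i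
  have h2 : (-(C L * pderiv i p) - C (b i)).totalDegree ≤ p.totalDegree - 1 := by
    refine (totalDegree_sub _ _).trans ?_
    rw [totalDegree_neg, totalDegree_C]
    exact max_le h1 (Nat.zero_le _)
  omega

theorem gG_totalDegree {e : ℕ} (he : 2 ≤ e) (L : R) (b : Fin N → R)
    {p : MvPolynomial (Fin N) R} (hp : p.totalDegree < 2 * e) :
    (gG e L b p).totalDegree ≤ 2 * e := by
  unfold gG
  refine (totalDegree_add _ _).trans (max_le ((totalDegree_add _ _).trans (max_le ?_ ?_)) ?_)
  · refine (totalDegree_mul _ _).trans ?_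
    rw [totalDegree_C, zero_add]
    exact hp.le
  · refine totalDegree_finsetSum_le fun i _ => ?_
    refine (totalDegree_pow _ _).trans ?_
    have h1 : (X i : MvPolynomial (Fin N) R).totalDegree ≤ 1 := by
      by_cases hR : Nontrivial R
      · rw [totalDegree_X]
      · rw [not_nontrivial_iff_subsingleton] at hR
        have : (X i : MvPolynomial (Fin N) R) = 0 := by
          ext m
          exact Subsingleton.elim _ _
        rw [this, totalDegree_zero]
        exact Nat.zero_le _
    calc 2 * e * (X i : MvPolynomial (Fin N) R).totalDegree ≤ 2 * e * 1 :=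
          Nat.mul_le_mul_left _ h1
      _ = 2 * e := mul_one _
  · refine totalDegree_finsetSum_le fun i _ => ?_
    refine (totalDegree_mul _ _).trans ?_
    rw [totalDegree_C, zero_add]
    have h1 : (X i : MvPolynomial (Fin N) R).totalDegree ≤ 1 := by
      by_cases hR : Nontrivial R
      · rw [totalDegree_X]
      · rw [not_nontrivial_iff_subsingleton] at hR
        have : (X i : MvPolynomial (Fin N) R) = 0 := by
          ext m
          exact Subsingleton.elim _ _
        rw [this, totalDegree_zero]
        exact Nat.zero_le _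
    omega

theorem gH_map {R' : Type} [CommRing R'] (φ : R →+* R') (L : R) (b : Fin N → R)
    (p : MvPolynomial (Fin N) R) (i : Fin N) :
    map φ (gH L b p i) = gH (φ L) (fun i => φ (b i)) (map φ p) i := by
  unfold gH
  rw [map_sub, map_neg, map_mul, map_C, map_C, pderiv_map]

theorem gG_map {R' : Type} [CommRing R'] (φ : R →+* R') (e : ℕ) (L : R) (b : Fin N → R)
    (p : MvPolynomial (Fin N) R) :
    map φ (gG e L b p) = gG e (φ L) (fun i => φ (b i)) (map φ p) := by
  have h2 : φ 2 = 2 := map_ofNat φ 2
  unfold gG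
  simp [h2]

/-- the partial derivatives of `g` are `2 e` times the equations -/
theorem pderiv_gG {e : ℕ} (he : 1 ≤ e) (L : R) (b : Fin N → R) (p : MvPolynomial (Fin N) R)
    (i : Fin N) : pderiv i (gG e L b p) = C (2 * (e : R)) * Fs (2 * e - 1) (gH L b p) i := by
  classical
  unfold gG Fs gH
  rw [map_add, map_add, map_sum, map_sum, pderiv_C_mul]
  have h1 : ∑ j, pderiv i (X j ^ (2 * e) : MvPolynomial (Fin N) R) =
      C (2 * (e : R)) * X i ^ (2 * e - 1) := by
    rw [Finset.sum_eq_single i]
    · rw [pderiv_pow, pderiv_X_self, mul_one]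
      congr 1
      have h3 : (C (2 : R) : MvPolynomial (Fin N) R) = 2 := map_ofNat C 2
      simp [h3]
    · intro j _ hj
      rw [pderiv_pow, pderiv_X_of_ne hj, mul_zero]
    · intro h
      exact absurd (Finset.mem_univ i) h
  have h2 : ∑ j, pderiv i (C (2 * (e : R) * b j) * X j : MvPolynomial (Fin N) R) =
      C (2 * (e : R)) * C (b i) := by
    rw [Finset.sum_eq_single i]
    · rw [pderiv_C_mul, pderiv_X_self, mul_one, C_mul]
    · intro j _ hj
      rw [pderiv_C_mul, pderiv_X_of_ne hj, mul_zero]
    · intro h
      exact absurd (Finset.mem_univ i) h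
  rw [h1, h2, C_mul (a := 2 * (e : R)) (a' := L)]
  ring

end Vale.Agent.P337
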