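import Mathlib
import Vale.Agent.Lib.P337.Real.System

/-!
P337, real side: norm bounds for the gradient system.
-/

namespace Vale.Agent.P337

open MvPolynomial

variable {N : ℕ} {R : Type} [CommRing R]

/-- size of an integer polynomial -/
noncomputable def l1 (p : MvPolynomial (Fin N) ℤ) : ℤ := ∑ m ∈ p.support, |coeff m p|

/-- bound for the weighted norm of `g` -/
def thU (N e Q lam B : ℕ) : ℕ :=
  (2 * e * lam * Q + N + 2 * e * N * B + 1) * (2 * e * Q * lam + B + 1) ^ (2 * e)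

theorem sysB_deg {e : ℕ} {p : MvPolynomial (Fin N) ℤ} (hp : p.totalDegree < 2 * e)
    {m : Fin N →₀ ℕ} (hm : m ∈ p.support) : m.degree < 2 * e := by
  refine lt_of_le_of_lt ?_ hp
  have := le_totalDegree hm
  rwa [Finsupp.sum_fintype _ _ (by simp), ← Finsupp.degree_eq_sum] at this

theorem sysB_sum_le {p : MvPolynomial (Fin N) ℤ} {Q : ℕ} (hQ : l1 p ≤ Q) :
    ∑ m ∈ p.support, |((coeff m p : ℤ) : ℝ)| ≤ Q := by
  have h1 : ((l1 p : ℤ) : ℝ) ≤ ((Q : ℤ) : ℝ) := by exact_mod_cast hQ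
  have h2 : ((l1 p : ℤ) : ℝ) = ∑ m ∈ p.support, |((coeff m p : ℤ) : ℝ)| := by
    unfold l1
    push_cast
    rfl
  rw [← h2]
  simpa using h1

theorem sysB_map_eq (φ : ℤ →+* R) (p : MvPolynomial (Fin N) ℤ) :
    map φ p = ∑ m ∈ p.support, monomial m (φ (coeff m p)) := by
  conv_lhs => rw [p.as_sum]
  rw [map_sum]
  apply Finset.sum_congr rfl
  intro m _
  rw [map_monomial]

theorem sysB_wnorm_map_le {ν : R → ℝ} (hν : IsNrm ν) (φ : ℤ →+* R)
    (hφ : ∀ n : ℤ, ν (φ n) ≤ |(n : ℝ)|) {e : ℕ} {p : MvPolynomial (Fin N) ℤ}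
    (hp : p.totalDegree < 2 * e) {Q : ℕ} (hQ : l1 p ≤ Q) {t : ℝ} (ht : 1 ≤ t) :
    wnorm ν t (map φ p) ≤ Q * t ^ (2 * e) := by
  have ht0 : (0 : ℝ) ≤ t := le_trans zero_le_one ht
  rw [sysB_map_eq]
  refine (wnorm_sum_le hν ht0 _ _).trans ?_
  calc ∑ m ∈ p.support, wnorm ν t (monomial m (φ (coeff m p)))
      ≤ ∑ m ∈ p.support, |((coeff m p : ℤ) : ℝ)| * t ^ (2 * e) := by
        apply Finset.sum_le_sum
        intro m hm
        refine (wnorm_monomial_le hν ht0 m _).trans ?_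
        exact mul_le_mul (hφ _) (pow_le_pow_right₀ ht (sysB_deg hp hm).le) (pow_nonneg ht0 _)
          (abs_nonneg _)
    _ = (∑ m ∈ p.support, |((coeff m p : ℤ) : ℝ)|) * t ^ (2 * e) := by rw [Finset.sum_mul]
    _ ≤ Q * t ^ (2 * e) := mul_le_mul_of_nonneg_right (sysB_sum_le hQ) (pow_nonneg ht0 _)

theorem sysB_wnorm_pderiv_le {ν : R → ℝ} (hν : IsNrm ν) (φ : ℤ →+* R)
    (hφ : ∀ n : ℤ, ν (φ n) ≤ |(n : ℝ)|) {e : ℕ} {p : MvPolynomial (Fin N) ℤ}
    (hp : p.totalDegree < 2 * e) {Q : ℕ} (hQ : l1 p ≤ Q) {t : ℝ} (ht : 1 ≤ t) (i : Fin N) :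
    wnorm ν t (pderiv i (map φ p)) ≤ 2 * e * Q * t ^ (2 * e - 2) := by
  have ht0 : (0 : ℝ) ≤ t := le_trans zero_le_one ht
  rw [sysB_map_eq, map_sum]
  refine (wnorm_sum_le hν ht0 _ _).trans ?_
  calc ∑ m ∈ p.support, wnorm ν t (pderiv i (monomial m (φ (coeff m p))))
      ≤ ∑ m ∈ p.support, |((coeff m p : ℤ) : ℝ)| * (2 * e * t ^ (2 * e - 2)) := by
        apply Finset.sum_le_sum
        intro m hm
        rw [pderiv_monomial]
        refine (wnorm_monomial_le hν ht0 _ _).trans ?_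
        have hdeg := sysB_deg hp hm
        have hmi : m i ≤ m.degree := by
          rw [Finsupp.degree_eq_sum]
          exact Finset.single_le_sum (f := fun j => m j) (fun j _ => Nat.zero_le _)
            (Finset.mem_univ i)
        have h1 : φ (coeff m p) * ((m i : ℕ) : R) = φ (coeff m p * (m i : ℤ)) := by
          rw [map_mul]
          simp
        have h2 : ν (φ (coeff m p) * ((m i : ℕ) : R)) ≤ |((coeff m p : ℤ) : ℝ)| * (m i : ℝ) := by
          rw [h1]
          refine (hφ _).trans ?_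
          push_cast
          rw [abs_mul, abs_of_nonneg (by positivity : (0 : ℝ) ≤ (m i : ℝ))]
        rcases Nat.eq_zero_or_pos (m i) with h0 | hpos
        · rw [h0] at h2 ⊢
          have h3 : ν (φ (coeff m p) * ((0 : ℕ) : R)) ≤ 0 := by simpa using h2
          have h4 : ν (φ (coeff m p) * ((0 : ℕ) : R)) = 0 := le_antisymm h3 (hν.nonneg _)
          rw [h4, zero_mul]
          positivity
        · have hd2 : (m - Finsupp.single i 1).degree ≤ 2 * e - 2 := by
            have h5 : m = (m - Finsupp.single i 1) + Finsupp.single i 1 := by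
              rw [tsub_add_cancel_of_le]
              rw [Finsupp.single_le_iff]
              exact hpos
            have h6 : m.degree = (m - Finsupp.single i 1).degree + 1 := by
              conv_lhs => rw [h5]
              rw [map_add, Finsupp.degree_single]
            omega
          have h7 : (m i : ℝ) ≤ 2 * e := by
            have : m i ≤ 2 * e := by omega
            exact_mod_cast this
          have h8 : ν (φ (coeff m p) * ((m i : ℕ) : R)) ≤ |((coeff m p : ℤ) : ℝ)| * (2 * e) :=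
            h2.trans (mul_le_mul_of_nonneg_left h7 (abs_nonneg _))
          calc ν (φ (coeff m p) * ((m i : ℕ) : R)) * t ^ (m - Finsupp.single i 1).degree
              ≤ |((coeff m p : ℤ) : ℝ)| * (2 * e) * t ^ (2 * e - 2) :=
                mul_le_mul h8 (pow_le_pow_right₀ ht hd2) (pow_nonneg ht0 _) (by positivity)
            _ = _ := by ring
    _ = (∑ m ∈ p.support, |((coeff m p : ℤ) : ℝ)|) * (2 * e * t ^ (2 * e - 2)) := by
        rw [Finset.sum_mul]
    _ ≤ Q * (2 * e * t ^ (2 * e - 2)) :=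
        mul_le_mul_of_nonneg_right (sysB_sum_le hQ) (by positivity)
    _ = _ := by ring

theorem sysB_wnorm_C_le {ν : R → ℝ} (hν : IsNrm ν) {t : ℝ} (ht : 0 ≤ t) (c : R) :
    wnorm ν t (C c : MvPolynomial (Fin N) R) ≤ ν c := by
  have := wnorm_monomial_le (N := N) hν ht 0 c
  simpa using this

theorem sysB_t_ge (e Q lam B : ℕ) : (1 : ℝ) ≤ ((2 * e * Q * lam + B + 1 : ℕ) : ℝ) := by
  exact_mod_cast Nat.le_add_left 1 _

theorem wnorm_gH_le {ν : R → ℝ} (hν : IsNrm ν) (φ : ℤ →+* R) (hφ : ∀ n : ℤ, ν (φ n) ≤ |(n : ℝ)|)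
    {e : ℕ} (he : 2 ≤ e) {p : MvPolynomial (Fin N) ℤ} (hp : p.totalDegree < 2 * e) {Q lam B : ℕ}
    (hQ : l1 p ≤ Q) {L : R} (hL : ν L ≤ lam) {b : Fin N → R} (hb : ∀ i, ν (b i) ≤ B) (i : Fin N) :
    wnorm ν ((2 * e * Q * lam + B + 1 : ℕ) : ℝ) (gH L b (map φ p) i) ≤
      ((2 * e * Q * lam + B + 1 : ℕ) : ℝ) ^ (2 * e - 1) := by
  have ht := sysB_t_ge e Q lam B
  set t : ℝ := ((2 * e * Q * lam + B + 1 : ℕ) : ℝ) with htdef
  have ht0 : (0 : ℝ) ≤ t := le_trans zero_le_one ht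
  have htval : t = 2 * e * Q * lam + B + 1 := by rw [htdef]; push_cast; ring
  unfold gH
  have h1 : wnorm ν t (-(C L * pderiv i (map φ p)) - C (b i)) ≤
      wnorm ν t (C L * pderiv i (map φ p)) + wnorm ν t (C (b i) : MvPolynomial (Fin N) R) := by
    rw [sub_eq_add_neg]
    refine (wnorm_add_le hν ht0 _ _).trans ?_
    rw [wnorm_neg hν, wnorm_neg hν]
  refine h1.trans ?_
  have h2 : wnorm ν t (C L * pderiv i (map φ p)) ≤ lam * (2 * e * Q * t ^ (2 * e - 2)) := by
    refine (wnorm_mul_le hν ht0 _ _).trans ?_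
    exact mul_le_mul ((sysB_wnorm_C_le hν ht0 L).trans hL)
      (sysB_wnorm_pderiv_le hν φ hφ hp hQ ht i) (wnorm_nonneg hν ht0 _) (by positivity)
  have h3 : wnorm ν t (C (b i) : MvPolynomial (Fin N) R) ≤ B :=
    (sysB_wnorm_C_le hν ht0 _).trans (hb i)
  have hpow : (1 : ℝ) ≤ t ^ (2 * e - 2) := one_le_pow₀ ht
  have h4 : t ^ (2 * e - 1) = t * t ^ (2 * e - 2) := by
    rw [← pow_succ']
    congr 1
    omega
  rw [h4]
  calc wnorm ν t (C L * pderiv i (map φ p)) + wnorm ν t (C (b i) : MvPolynomial (Fin N) R)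
      ≤ lam * (2 * e * Q * t ^ (2 * e - 2)) + B := add_le_add h2 h3
    _ ≤ lam * (2 * e * Q * t ^ (2 * e - 2)) + B * t ^ (2 * e - 2) + t ^ (2 * e - 2) := by
        have hB : (0 : ℝ) ≤ B := by positivity
        nlinarith [mul_le_mul_of_nonneg_left hpow hB]
    _ = (2 * e * Q * lam + B + 1) * t ^ (2 * e - 2) := by ring
    _ = t * t ^ (2 * e - 2) := by rw [← htval]

theorem wnorm_gG_le {ν : R → ℝ} (hν : IsNrm ν) (φ : ℤ →+* R) (hφ : ∀ n : ℤ, ν (φ n) ≤ |(n : ℝ)|)
    {e : ℕ} (he : 2 ≤ e) {p : MvPolynomial (Fin N) ℤ} (hp : p.totalDegree < 2 * e) {Q lam B : ℕ}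
    (hQ : l1 p ≤ Q) {L : R} (hL : ν L ≤ lam) {b : Fin N → R} (hb : ∀ i, ν (b i) ≤ B) :
    wnorm ν ((2 * e * Q * lam + B + 1 : ℕ) : ℝ) (gG e L b (map φ p)) ≤ (thU N e Q lam B : ℕ) := by
  have ht := sysB_t_ge e Q lam B
  have hcast : ((thU N e Q lam B : ℕ) : ℝ) = (2 * e * lam * Q + N + 2 * e * N * B + 1) *
      ((2 * e * Q * lam + B + 1 : ℕ) : ℝ) ^ (2 * e) := by
    unfold thU
    push_cast
    ring
  rw [hcast]
  set t : ℝ := ((2 * e * Q * lam + B + 1 : ℕ) : ℝ) with htdef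
  have ht0 : (0 : ℝ) ≤ t := le_trans zero_le_one ht
  have h2e : ∀ c : R, ν (2 * (e : R) * c) ≤ 2 * e * ν c := by
    intro c
    refine (hν.mul_le _ _).trans (mul_le_mul_of_nonneg_right ?_ (hν.nonneg _))
    have h1 : (2 * (e : R)) = φ (2 * (e : ℤ)) := by simp
    rw [h1]
    refine (hφ _).trans ?_
    push_cast
    rw [abs_of_nonneg (by positivity)]
  unfold gG
  have hA : wnorm ν t (C (2 * (e : R) * L) * map φ p) ≤ 2 * e * lam * Q * t ^ (2 * e) := by
    refine (wnorm_mul_le hν ht0 _ _).trans ?_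
    have h1 : wnorm ν t (C (2 * (e : R) * L) : MvPolynomial (Fin N) R) ≤ 2 * e * lam :=
      (sysB_wnorm_C_le hν ht0 _).trans ((h2e L).trans
        (mul_le_mul_of_nonneg_left hL (by positivity)))
    calc wnorm ν t (C (2 * (e : R) * L) : MvPolynomial (Fin N) R) * wnorm ν t (map φ p)
        ≤ (2 * e * lam) * (Q * t ^ (2 * e)) :=
          mul_le_mul h1 (sysB_wnorm_map_le hν φ hφ hp hQ ht) (wnorm_nonneg hν ht0 _)
            (by positivity)
      _ = _ := by ring
  have hX : wnorm ν t (∑ i : Fin N, X i ^ (2 * e) : MvPolynomial (Fin N) R) ≤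
      N * t ^ (2 * e) := by
    refine (wnorm_sum_le hν ht0 _ _).trans ?_
    have h1 : ∀ i ∈ (Finset.univ : Finset (Fin N)),
        wnorm ν t (X i ^ (2 * e) : MvPolynomial (Fin N) R) ≤ t ^ (2 * e) := by
      intro i _
      rw [X_pow_eq_monomial]
      refine (wnorm_monomial_le hν ht0 _ _).trans ?_
      rw [Finsupp.degree_single]
      calc ν 1 * t ^ (2 * e) ≤ 1 * t ^ (2 * e) :=
            mul_le_mul_of_nonneg_right hν.one (pow_nonneg ht0 _)
        _ = _ := one_mul _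
    refine (Finset.sum_le_sum h1).trans ?_
    simp
  have hB : wnorm ν t (∑ i : Fin N, C (2 * (e : R) * b i) * X i : MvPolynomial (Fin N) R) ≤
      2 * e * N * B * t ^ (2 * e) := by
    refine (wnorm_sum_le hν ht0 _ _).trans ?_
    have h1 : ∀ i ∈ (Finset.univ : Finset (Fin N)),
        wnorm ν t (C (2 * (e : R) * b i) * X i : MvPolynomial (Fin N) R) ≤
          2 * e * B * t ^ (2 * e) := by
      intro i _
      rw [C_mul_X_eq_monomial]
      refine (wnorm_monomial_le hν ht0 _ _).trans ?_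
      rw [Finsupp.degree_single]
      have h2 : ν (2 * (e : R) * b i) ≤ 2 * e * B :=
        (h2e (b i)).trans (mul_le_mul_of_nonneg_left (hb i) (by positivity))
      exact mul_le_mul h2 (pow_le_pow_right₀ ht (by omega)) (pow_nonneg ht0 _) (by positivity)
    refine (Finset.sum_le_sum h1).trans ?_
    simp only [Finset.sum_const, Finset.card_univ, Fintype.card_fin, nsmul_eq_mul]
    apply le_of_eq
    ring
  refine (wnorm_add_le hν ht0 _ _).trans ?_
  have h5 := wnorm_add_le hν ht0 (C (2 * (e : R) * L) * map φ p)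
    (∑ i : Fin N, X i ^ (2 * e) : MvPolynomial (Fin N) R)
  have hpow : (0 : ℝ) ≤ t ^ (2 * e) := pow_nonneg ht0 _
  nlinarith

end Vale.Agent.P337
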