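import Mathlib
import Vale.Agent.Lib.P337.Real.SystemB

/-!
P337, real side: the polynomial relation for the critical values.
-/

namespace Vale.Agent.P337

open MvPolynomial

variable {N : ℕ}

/-- real version of an integer polynomial -/
noncomputable abbrev toR (p : MvPolynomial (Fin N) ℤ) : MvPolynomial (Fin N) ℝ :=
  map (Int.castRingHom ℝ) p

section gapPolyAux

theorem gapPoly_pnorm_monomial_le {R : Type} [CommRing R] {ν : R → ℝ} (hν : IsNrm ν) {u : ℝ}
    (hu : 0 ≤ u) (n : ℕ) (a : R) : pnorm ν u (Polynomial.monomial n a) ≤ ν a * u ^ n := by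
  unfold pnorm
  have h1 : ∑ i ∈ (Polynomial.monomial n a).support,
      ν ((Polynomial.monomial n a).coeff i) * u ^ i
      ≤ ∑ i ∈ {n}, ν ((Polynomial.monomial n a).coeff i) * u ^ i :=
    Finset.sum_le_sum_of_subset_of_nonneg (Polynomial.support_monomial_subset n a)
      fun i _ _ => mul_nonneg (hν.nonneg _) (pow_nonneg hu _)
  refine h1.trans ?_
  rw [Finset.sum_singleton, Polynomial.coeff_monomial, if_pos rfl]

theorem gapPoly_pnorm_C_le {R : Type} [CommRing R] {ν : R → ℝ} (hν : IsNrm ν) {u : ℝ}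
    (hu : 0 ≤ u) (a : R) : pnorm ν u (Polynomial.C a) ≤ ν a := by
  have h := gapPoly_pnorm_monomial_le hν hu 0 a
  rwa [Polynomial.monomial_zero_left, pow_zero, mul_one] at h

theorem gapPoly_pnorm_X_le {R : Type} [CommRing R] {ν : R → ℝ} (hν : IsNrm ν) {u : ℝ}
    (hu : 0 ≤ u) : pnorm ν u (Polynomial.X : Polynomial R) ≤ u := by
  have h := gapPoly_pnorm_monomial_le hν hu 1 (1 : R)
  rw [Polynomial.monomial_one_one_eq_X, pow_one] at h
  refine h.trans ?_
  calc ν 1 * u ≤ 1 * u := mul_le_mul_of_nonneg_right hν.one hu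
    _ = u := one_mul u

theorem gapPoly_wnorm_C_le {R : Type} [CommRing R] {ν : R → ℝ} (hν : IsNrm ν) {t : ℝ}
    (ht : 0 ≤ t) (a : R) : wnorm ν t (C a : MvPolynomial (Fin N) R) ≤ ν a := by
  have h := wnorm_monomial_le hν ht (0 : Fin N →₀ ℕ) a
  rw [map_zero, pow_zero, mul_one] at h
  exact h

theorem gapPoly_totalDegree_map_le {R S : Type} [CommRing R] [CommRing S] (θ : R →+* S)
    (p : MvPolynomial (Fin N) R) : (map θ p).totalDegree ≤ p.totalDegree := by
  unfold totalDegree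
  exact Finset.sup_mono (support_map_subset _ _)

theorem gapPoly_mmat_sub {R : Type} [CommRing R] {d : ℕ} (hd : 1 ≤ d)
    {H : Fin N → MvPolynomial (Fin N) R} (hH : ∀ i, (H i).totalDegree < d)
    (g h : MvPolynomial (Fin N) R) :
    mmat hd hH (g - h) = mmat hd hH g - mmat hd hH h := by
  simp [mmat]

theorem gapPoly_mmat_congr {R : Type} [CommRing R] {d : ℕ} (hd : 1 ≤ d)
    {H H' : Fin N → MvPolynomial (Fin N) R} (hH : ∀ i, (H i).totalDegree < d)
    (hH' : ∀ i, (H' i).totalDegree < d) (h : H = H') {g g' : MvPolynomial (Fin N) R}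
    (hg : g = g') : mmat hd hH g = mmat hd hH' g' := by
  subst h
  subst hg
  rfl

/-- base change for the multiplication matrices of the gradient system -/
theorem gapPoly_mmat_map {R R' : Type} [CommRing R] [CommRing R'] (θ : R →+* R') {e : ℕ}
    (he : 2 ≤ e) (hd : 1 ≤ 2 * e - 1) {p : MvPolynomial (Fin N) R} (hp : p.totalDegree < 2 * e)
    {p' : MvPolynomial (Fin N) R'} (hp' : p'.totalDegree < 2 * e) (hpp : map θ p = p')
    {L : R} {L' : R'} (hL : θ L = L') {g : MvPolynomial (Fin N) R}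
    {g' : MvPolynomial (Fin N) R'} (hg : map θ g = g') :
    (mmat hd (gH_totalDegree he L 0 hp) g).map θ =
      mmat hd (gH_totalDegree he L' 0 hp') g' := by
  subst hpp
  subst hL
  have hHeq : (fun i => map θ (gH L 0 p i)) = gH (θ L) 0 (map θ p) := by
    funext i
    rw [gH_map]
    congr 1
    funext i
    simp
  have hH' : ∀ i, (map θ (gH L 0 p i)).totalDegree < 2 * e - 1 := fun i =>
    lt_of_le_of_lt (gapPoly_totalDegree_map_le _ _) (gH_totalDegree he L 0 hp i)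
  rw [← mmat_map θ hd (gH_totalDegree he L 0 hp) hH' g]
  exact gapPoly_mmat_congr hd hH' _ hHeq hg

/-- base change for `g` -/
theorem gapPoly_gG_map {R R' : Type} [CommRing R] [CommRing R'] (θ : R →+* R') (e : ℕ) (L : R)
    (p : MvPolynomial (Fin N) R) : map θ (gG e L 0 p) = gG e (θ L) 0 (map θ p) := by
  rw [gG_map]
  congr 1
  funext i
  simp

/-- the determinant of `c - g` is the value at `c` of the characteristic polynomial -/
theorem gapPoly_det_eq {R : Type} [CommRing R] {d : ℕ} (hd : 1 ≤ d)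
    {H : Fin N → MvPolynomial (Fin N) R} (hH : ∀ i, (H i).totalDegree < d) (c : R)
    (g : MvPolynomial (Fin N) R) :
    (mmat hd hH (C c - g)).det = (mmat hd hH g).charpoly.eval c := by
  rw [gapPoly_mmat_sub, mmat_C, Matrix.eval_charpoly]

/-- specialisation `L = 0` -/
theorem gapPoly_det_ne_zero {R : Type} [CommRing R] (φ : ℤ →+* R) (ψ : R →+* Polynomial ℤ)
    {e : ℕ} (he : 2 ≤ e) (hd : 1 ≤ 2 * e - 1) {p : MvPolynomial (Fin N) ℤ}
    (hp : p.totalDegree < 2 * e) (hp' : (map φ p).totalDegree < 2 * e) {L c : R}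
    (hL : ψ L = Polynomial.C 0) (hc : ψ c = Polynomial.X) :
    (mmat hd (gH_totalDegree he L 0 hp') (C c - gG e L 0 (map φ p))).det ≠ 0 := by
  intro h0
  have hp2 : (map (Polynomial.C : ℤ →+* Polynomial ℤ) p).totalDegree < 2 * e :=
    lt_of_le_of_lt (gapPoly_totalDegree_map_le _ _) hp
  have hcomp : map ψ (map φ p) = map (Polynomial.C : ℤ →+* Polynomial ℤ) p := by
    rw [map_map, RingHom.ext_int (ψ.comp φ) (Polynomial.C : ℤ →+* Polynomial ℤ)]
  have h1 := congrArg ψ h0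
  rw [RingHom.map_det, RingHom.mapMatrix_apply, map_zero] at h1
  have h2 : map ψ (C c - gG e L 0 (map φ p)) = C Polynomial.X
      - gG e (Polynomial.C 0) 0 (map (Polynomial.C : ℤ →+* Polynomial ℤ) p) := by
    rw [map_sub, map_C, gapPoly_gG_map, hL, hc, hcomp]
  rw [gapPoly_mmat_map ψ he hd hp' hp2 hcomp hL h2, gapPoly_mmat_sub, mmat_C] at h1
  have h3 := gapPoly_mmat_map (Polynomial.C : ℤ →+* Polynomial ℤ) he hd hp hp2 rfl
    (L := (0 : ℤ)) rfl (gapPoly_gG_map Polynomial.C e 0 p)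
  rw [← h3] at h1
  have h4 : (mmat hd (gH_totalDegree he (0 : ℤ) 0 hp) (gG e 0 0 p)).charpoly = 0 := by
    rw [Matrix.charpoly, Matrix.charmatrix]
    exact h1
  exact (Matrix.charpoly_monic _).ne_zero h4

/-- the norm bound -/
theorem gapPoly_det_le {R : Type} [CommRing R] {ν : R → ℝ} (hν : IsNrm ν) (φ : ℤ →+* R)
    (hφ : ∀ n : ℤ, ν (φ n) ≤ |(n : ℝ)|)
    {e : ℕ} (he : 2 ≤ e) (hd : 1 ≤ 2 * e - 1) {p : MvPolynomial (Fin N) ℤ}
    (hp : p.totalDegree < 2 * e) (hp' : (map φ p).totalDegree < 2 * e) {Q : ℕ} (hQ : l1 p ≤ Q)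
    {L c : R} (hL : ν L ≤ 1) {u : ℝ} (hc : ν c ≤ u) :
    ν (mmat hd (gH_totalDegree he L 0 hp') (C c - gG e L 0 (map φ p))).det ≤
      (u + (thU N e Q 1 0 : ℕ)) ^ ((2 * e - 1) ^ N) := by
  have hL' : ν L ≤ ((1 : ℕ) : ℝ) := by
    rw [Nat.cast_one]
    exact hL
  have hb : ∀ i : Fin N, ν ((0 : Fin N → R) i) ≤ ((0 : ℕ) : ℝ) := by
    intro i
    rw [Pi.zero_apply, hν.zero, Nat.cast_zero]
  have ht : (1 : ℝ) ≤ ((2 * e * Q * 1 + 0 + 1 : ℕ) : ℝ) := by
    exact_mod_cast Nat.le_add_left 1 _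
  have ht0 : (0 : ℝ) ≤ ((2 * e * Q * 1 + 0 + 1 : ℕ) : ℝ) := zero_le_one.trans ht
  have h1 := mmat_det_le hν ht hd (gH_totalDegree he L 0 hp')
    (wnorm_gH_le (lam := 1) (B := 0) hν φ hφ he hp hQ hL' hb) (C c - gG e L 0 (map φ p))
  refine h1.trans (pow_le_pow_left₀ (wnorm_nonneg hν ht0 _) ?_ _)
  rw [sub_eq_add_neg]
  refine (wnorm_add_le hν ht0 _ _).trans (add_le_add ?_ ?_)
  · exact (gapPoly_wnorm_C_le hν ht0 _).trans hc
  · rw [wnorm_neg hν]
    exact wnorm_gG_le (lam := 1) (B := 0) hν φ hφ he hp hQ hL' hb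

/-- vanishing at the critical values -/
theorem gapPoly_det_eq_zero {R : Type} [CommRing R] (φ : ℤ →+* R) (θ : R →+* ℝ)
    {e : ℕ} (he : 2 ≤ e) (hd : 1 ≤ 2 * e - 1) {p : MvPolynomial (Fin N) ℤ}
    (hp : p.totalDegree < 2 * e) (hp' : (map φ p).totalDegree < 2 * e) {L c : R} {L' : ℝ}
    (hL : θ L = L') (ξ : Fin N → ℝ)
    (hξ : ∀ i, eval ξ (Fs (2 * e - 1) (gH L' 0 (toR p)) i) = 0)
    (hc : θ c = eval ξ (gG e L' 0 (toR p))) :
    θ (mmat hd (gH_totalDegree he L 0 hp') (C c - gG e L 0 (map φ p))).det = 0 := by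
  have hp2 : (toR p).totalDegree < 2 * e := lt_of_le_of_lt (gapPoly_totalDegree_map_le _ _) hp
  have hcomp : map θ (map φ p) = toR p := by
    rw [map_map, RingHom.ext_int (θ.comp φ) (Int.castRingHom ℝ)]
  have h2 : map θ (C c - gG e L 0 (map φ p)) = C (θ c) - gG e L' 0 (toR p) := by
    rw [map_sub, map_C, gapPoly_gG_map, hL, hcomp]
  rw [RingHom.map_det, RingHom.mapMatrix_apply,
    gapPoly_mmat_map θ he hd hp' hp2 hcomp hL h2, gapPoly_det_eq, hc]
  exact mmat_eigen hd _ _ ξ hξ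

/-- the embedding of the integers in `ℤ[c][L]` -/
noncomputable def gapPhi : ℤ →+* Polynomial (Polynomial ℤ) :=
  (Polynomial.C : Polynomial ℤ →+* Polynomial (Polynomial ℤ)).comp
    (Polynomial.C : ℤ →+* Polynomial ℤ)

/-- the determinant as a polynomial in two variables -/
noncomputable def gapChi {e : ℕ} (he : 2 ≤ e) (hd : 1 ≤ 2 * e - 1) {p : MvPolynomial (Fin N) ℤ}
    (hp' : (map gapPhi p).totalDegree < 2 * e) : Polynomial (Polynomial ℤ) :=
  (mmat hd (gH_totalDegree he (Polynomial.X : Polynomial (Polynomial ℤ)) 0 hp')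
    (C (Polynomial.C (Polynomial.X : Polynomial ℤ) : Polynomial (Polynomial ℤ)) -
      gG e (Polynomial.X : Polynomial (Polynomial ℤ)) 0 (map gapPhi p))).det

theorem gapChi_norm_le {e : ℕ} (he : 2 ≤ e) (hd : 1 ≤ 2 * e - 1) {p : MvPolynomial (Fin N) ℤ}
    (hp : p.totalDegree < 2 * e) (hp' : (map gapPhi p).totalDegree < 2 * e) {Q : ℕ}
    (hQ : l1 p ≤ Q) {u : ℝ} (hu : 0 ≤ u) :
    pnorm (pnorm (fun a : ℤ => |(a : ℝ)|) u) 1 (gapChi he hd hp') ≤
      (u + (thU N e Q 1 0 : ℕ)) ^ ((2 * e - 1) ^ N) := by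
  have hν1 : IsNrm (pnorm (fun a : ℤ => |(a : ℝ)|) u) := isNrm_pnorm isNrm_int hu
  have hν : IsNrm (pnorm (pnorm (fun a : ℤ => |(a : ℝ)|) u) 1) :=
    isNrm_pnorm hν1 zero_le_one
  have h1 : ∀ n : ℤ, pnorm (pnorm (fun a : ℤ => |(a : ℝ)|) u) 1 (gapPhi n) ≤ |(n : ℝ)| :=
    fun n => (gapPoly_pnorm_C_le hν1 zero_le_one _).trans (gapPoly_pnorm_C_le isNrm_int hu _)
  have h2 : pnorm (pnorm (fun a : ℤ => |(a : ℝ)|) u) 1
      (Polynomial.X : Polynomial (Polynomial ℤ)) ≤ 1 := gapPoly_pnorm_X_le hν1 zero_le_one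
  have h3 : pnorm (pnorm (fun a : ℤ => |(a : ℝ)|) u) 1
      (Polynomial.C Polynomial.X : Polynomial (Polynomial ℤ)) ≤ u :=
    (gapPoly_pnorm_C_le hν1 zero_le_one _).trans (gapPoly_pnorm_X_le isNrm_int hu)
  exact gapPoly_det_le hν gapPhi h1 he hd hp hp' hQ h2 h3

theorem gapChi_ne_zero {e : ℕ} (he : 2 ≤ e) (hd : 1 ≤ 2 * e - 1) {p : MvPolynomial (Fin N) ℤ}
    (hp : p.totalDegree < 2 * e) (hp' : (map gapPhi p).totalDegree < 2 * e) :
    gapChi he hd hp' ≠ 0 :=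
  gapPoly_det_ne_zero gapPhi (Polynomial.evalRingHom (0 : Polynomial ℤ)) he hd hp hp'
    (by simp) (by simp)

/-- evaluation at real values of `L` and `c` -/
noncomputable def gapTheta (L c : ℝ) : Polynomial (Polynomial ℤ) →+* ℝ :=
  (Polynomial.evalRingHom c).comp ((Polynomial.evalRingHom (Polynomial.C L)).comp
    (Polynomial.mapRingHom (Polynomial.mapRingHom (Int.castRingHom ℝ))))

theorem gapTheta_apply (L c : ℝ) (χ : Polynomial (Polynomial ℤ)) :
    gapTheta L c χ = Polynomial.eval c (Polynomial.eval (Polynomial.C L)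
      (χ.map (Polynomial.mapRingHom (Int.castRingHom ℝ)))) := rfl

theorem gapTheta_X (L c : ℝ) : gapTheta L c Polynomial.X = L := by
  rw [gapTheta_apply, Polynomial.map_X, Polynomial.eval_X, Polynomial.eval_C]

theorem gapTheta_CX (L c : ℝ) : gapTheta L c (Polynomial.C Polynomial.X) = c := by
  rw [gapTheta_apply, Polynomial.map_C, Polynomial.eval_C, Polynomial.coe_mapRingHom,
    Polynomial.map_X, Polynomial.eval_X]

theorem gapChi_vanish {e : ℕ} (he : 2 ≤ e) (hd : 1 ≤ 2 * e - 1) {p : MvPolynomial (Fin N) ℤ}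
    (hp : p.totalDegree < 2 * e) (hp' : (map gapPhi p).totalDegree < 2 * e) (L : ℝ)
    (ξ : Fin N → ℝ) (hξ : ∀ i, eval ξ (Fs (2 * e - 1) (gH L 0 (toR p)) i) = 0) :
    gapTheta L (eval ξ (gG e L 0 (toR p))) (gapChi he hd hp') = 0 :=
  gapPoly_det_eq_zero gapPhi (gapTheta L (eval ξ (gG e L 0 (toR p)))) he hd hp hp'
    (gapTheta_X _ _) ξ hξ (gapTheta_CX _ _)

end gapPolyAux

/-- a polynomial relation between the factor `L` (outer variable) and the critical values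
(inner variable), with bounded coefficients -/
theorem exists_gapPoly {e : ℕ} (he : 2 ≤ e) {p : MvPolynomial (Fin N) ℤ}
    (hp : p.totalDegree < 2 * e) {Q : ℕ} (hQ : l1 p ≤ Q) :
    ∃ χ : Polynomial (Polynomial ℤ), χ ≠ 0 ∧
      (∀ u : ℝ, 0 ≤ u → pnorm (pnorm (fun a : ℤ => |(a : ℝ)|) u) 1 χ ≤
        (u + (thU N e Q 1 0 : ℕ)) ^ ((2 * e - 1) ^ N)) ∧
      ∀ (L : ℝ) (ξ : Fin N → ℝ), (∀ i, eval ξ (Fs (2 * e - 1) (gH L 0 (toR p)) i) = 0) →
        Polynomial.eval (eval ξ (gG e L 0 (toR p)))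
          (Polynomial.eval (Polynomial.C L)
            (χ.map (Polynomial.mapRingHom (Int.castRingHom ℝ)))) = 0 := by
  have hd : 1 ≤ 2 * e - 1 := by omega
  have hp' : (map gapPhi p).totalDegree < 2 * e :=
    lt_of_le_of_lt (gapPoly_totalDegree_map_le _ _) hp
  refine ⟨gapChi he hd hp', gapChi_ne_zero he hd hp hp',
    fun u hu => gapChi_norm_le he hd hp hp' hQ hu, fun L ξ hξ => ?_⟩
  have h := gapChi_vanish he hd hp hp' L ξ hξ
  rwa [gapTheta_apply] at h

end Vale.Agent.P337
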