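import Mathlib
import Vale.Agent.Lib.P337.Real.System

/-!
P337, real side: the minimum is attained.
-/

namespace Vale.Agent.P337

open MvPolynomial

variable {N : ℕ}

/-- the partial derivative along a coordinate line -/
theorem mvp_hasDerivAt (x : Fin N → ℝ) (i : Fin N) (p : MvPolynomial (Fin N) ℝ) :
    HasDerivAt (fun t : ℝ => eval (Function.update x i t) p) (eval x (pderiv i p)) (x i) := by
  induction p using MvPolynomial.induction_on with
  | C a =>
    simp only [eval_C, pderiv_C, map_zero]
    exact hasDerivAt_const _ _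
  | add p q hp hq =>
    simp only [map_add]
    exact hp.add hq
  | mul_X p j hp =>
    have h1 : HasDerivAt (fun t : ℝ => Function.update x i t j) (if i = j then 1 else 0) (x i) := by
      by_cases hij : i = j
      · subst hij
        simp only [Function.update_self, if_true]
        exact hasDerivAt_id _
      · simp only [Function.update_of_ne (Ne.symm hij), if_neg hij]
        exact hasDerivAt_const _ _
    have h2 := hp.mul h1
    rw [Function.update_eq_self] at h2
    simp only [eval_mul, eval_X, pderiv_mul, map_add]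
    have h3 : eval x (pderiv i (X j : MvPolynomial (Fin N) ℝ)) = if i = j then 1 else 0 := by
      rw [pderiv_X]
      by_cases hij : i = j
      · subst hij
        simp
      · rw [Pi.single_eq_of_ne (Ne.symm hij)]
        simp [hij]
    rw [h3]
    exact h2

theorem one_var_lower {e : ℕ} (he : 2 ≤ e) (b t : ℝ) :
    t ^ 2 / 2 - (1 + 2 * (e : ℝ) ^ 2 * b ^ 2) ≤ t ^ (2 * e) + 2 * (e : ℝ) * b * t := by
  have h1 : t ^ 2 - 1 ≤ t ^ (2 * e) := by
    rw [pow_mul]
    by_cases h : 1 ≤ t ^ 2
    · have h2 : (t ^ 2) ^ 1 ≤ (t ^ 2) ^ e := pow_le_pow_right₀ h (by omega)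
      rw [pow_one] at h2
      linarith
    · have h2 : 0 ≤ (t ^ 2) ^ e := by positivity
      push Not at h
      linarith
  nlinarith [sq_nonneg (t + 2 * (e : ℝ) * b)]

/-- the minimum of `2 e L p + ∑ x_i ^ (2 e)` is attained, at a solution of the system -/
theorem exists_min {e : ℕ} (he : 2 ≤ e) {p : MvPolynomial (Fin N) ℝ}
    (hpos : ∀ x, 0 ≤ eval x p) {L : ℝ} (hL : 0 ≤ L) (b : Fin N → ℝ) :
    ∃ ξ : Fin N → ℝ, (∀ x, eval ξ (gG e L b p) ≤ eval x (gG e L b p)) ∧
      ∀ i, eval ξ (Fs (2 * e - 1) (gH L b p) i) = 0 := by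
  have heval : ∀ x : Fin N → ℝ, eval x (gG e L b p) =
      2 * (e : ℝ) * L * eval x p + ∑ i, (x i ^ (2 * e) + 2 * (e : ℝ) * b i * x i) := by
    intro x
    unfold gG
    simp only [map_add, map_mul, map_sum, map_pow, eval_C, eval_X, Finset.sum_add_distrib]
    ring
  set K : ℝ := ∑ i, (1 + 2 * (e : ℝ) ^ 2 * b i ^ 2) with hK
  have hlow : ∀ x : Fin N → ℝ, ∑ i, x i ^ 2 / 2 - K ≤ eval x (gG e L b p) := by
    intro x
    rw [heval, hK, ← Finset.sum_sub_distrib]
    have h1 : 0 ≤ 2 * (e : ℝ) * L * eval x p := by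
      have := hpos x
      positivity
    have h2 := Finset.sum_le_sum (fun i (_ : i ∈ (Finset.univ : Finset (Fin N))) =>
      one_var_lower he (b i) (x i))
    linarith
  have hcont : Continuous (fun x : Fin N → ℝ => eval x (gG e L b p)) :=
    MvPolynomial.continuous_eval _
  set g0 : ℝ := eval 0 (gG e L b p) with hg0
  obtain ⟨ξ, hξ⟩ := hcont.exists_forall_le' (0 : Fin N → ℝ) (by
    set R : ℝ := 2 * (|g0| + |K|) + 1 with hR
    have hR1 : 1 ≤ R := by
      have := abs_nonneg g0
      have := abs_nonneg K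
      linarith
    filter_upwards [(isCompact_closedBall (0 : Fin N → ℝ) R).compl_mem_cocompact] with x hx
    rw [Set.mem_compl_iff, mem_closedBall_zero_iff, not_le] at hx
    obtain ⟨i, hi⟩ : ∃ i, R < |x i| := by
      by_contra hcon
      push Not at hcon
      have h1 : ‖x‖ ≤ R := by
        rw [pi_norm_le_iff_of_nonneg (by linarith)]
        intro i
        exact hcon i
      linarith
    have h2 : x i ^ 2 / 2 ≤ ∑ i, x i ^ 2 / 2 :=
      Finset.single_le_sum (f := fun i => x i ^ 2 / 2) (fun j _ => by positivity)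
        (Finset.mem_univ i)
    have h3 : R ≤ x i ^ 2 := by
      have h4 : R ^ 2 ≤ |x i| ^ 2 := by
        apply pow_le_pow_left₀ (by linarith) hi.le
      rw [sq_abs] at h4
      nlinarith
    have h5 := hlow x
    have h6 := le_abs_self g0
    have h7 := le_abs_self K
    linarith)
  refine ⟨ξ, hξ, ?_⟩
  intro i
  have h1 := mvp_hasDerivAt ξ i (gG e L b p)
  have h2 : IsLocalMin (fun t : ℝ => eval (Function.update ξ i t) (gG e L b p)) (ξ i) := by
    refine Filter.Eventually.of_forall ?_
    intro t
    simp only [Function.update_eq_self]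
    exact hξ _
  have h3 := h2.hasDerivAt_eq_zero h1
  rw [pderiv_gG (by omega), map_mul, eval_C] at h3
  have h4 : (2 * (e : ℝ)) ≠ 0 := by
    have : (2 : ℝ) ≤ e := by exact_mod_cast he
    positivity
  exact (mul_eq_zero.mp h3).resolve_left h4

end Vale.Agent.P337
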