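import Mathlib
import Vale.Agent.Lib.P337.Real.GapPoly
import Vale.Agent.Lib.P337.Real.Min

/-!
P337, real side: no small values without zeros.
-/

namespace Vale.Agent.P337

open MvPolynomial

variable {N : ℕ}

/-- root bound for integer polynomials -/
private theorem gp_root_bound {P : Polynomial ℤ} (hP : P ≠ 0) {x : ℝ}
    (hx : pnorm (fun a : ℤ => |(a : ℝ)|) 1 P ≤ x) :
    Polynomial.eval x (P.map (Int.castRingHom ℝ)) ≠ 0 := by
  intro h0
  set n := P.natDegree with hn
  have hmem : n ∈ P.support := Polynomial.natDegree_mem_support_of_nonzero hP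
  have hlead : (1 : ℝ) ≤ |((P.coeff n : ℤ) : ℝ)| := by
    have h1 : P.coeff n ≠ 0 := Polynomial.mem_support_iff.1 hmem
    exact_mod_cast Int.one_le_abs h1
  have hsplit : ∑ i ∈ P.support, |((P.coeff i : ℤ) : ℝ)| =
      |((P.coeff n : ℤ) : ℝ)| + ∑ i ∈ P.support.erase n, |((P.coeff i : ℤ) : ℝ)| :=
    (Finset.add_sum_erase _ (fun i => |((P.coeff i : ℤ) : ℝ)|) hmem).symm
  have hnn : 0 ≤ ∑ i ∈ P.support.erase n, |((P.coeff i : ℤ) : ℝ)| :=
    Finset.sum_nonneg fun i _ => abs_nonneg _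
  have hS : ∑ i ∈ P.support, |((P.coeff i : ℤ) : ℝ)| ≤ x := by
    simpa [pnorm] using hx
  have hx1 : 1 ≤ x := by linarith
  have heval : Polynomial.eval x (P.map (Int.castRingHom ℝ)) =
      ∑ i ∈ P.support, ((P.coeff i : ℤ) : ℝ) * x ^ i := by
    rw [Polynomial.eval_map, Polynomial.eval₂_eq_sum, Polynomial.sum_def]
    rfl
  rw [heval, ← Finset.add_sum_erase _ _ hmem] at h0
  have h1 : ((P.coeff n : ℤ) : ℝ) * x ^ n =
      -∑ i ∈ P.support.erase n, ((P.coeff i : ℤ) : ℝ) * x ^ i := by linarith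
  have h2 : |((P.coeff n : ℤ) : ℝ)| * x ^ n * x ≤
      (∑ i ∈ P.support.erase n, |((P.coeff i : ℤ) : ℝ)|) * x ^ n := by
    have h3 : |((P.coeff n : ℤ) : ℝ)| * x ^ n =
        |∑ i ∈ P.support.erase n, ((P.coeff i : ℤ) : ℝ) * x ^ i| := by
      rw [← abs_of_nonneg (pow_nonneg (zero_le_one.trans hx1) n), ← abs_mul, h1, abs_neg]
    rw [h3]
    calc |∑ i ∈ P.support.erase n, ((P.coeff i : ℤ) : ℝ) * x ^ i| * x
        ≤ (∑ i ∈ P.support.erase n, |((P.coeff i : ℤ) : ℝ) * x ^ i|) * x :=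
          mul_le_mul_of_nonneg_right (Finset.abs_sum_le_sum_abs _ _) (by linarith)
      _ = ∑ i ∈ P.support.erase n, |((P.coeff i : ℤ) : ℝ)| * x ^ (i + 1) := by
          rw [Finset.sum_mul]
          refine Finset.sum_congr rfl fun i _ => ?_
          rw [abs_mul, abs_of_nonneg (pow_nonneg (zero_le_one.trans hx1) i), pow_succ]
          ring
      _ ≤ ∑ i ∈ P.support.erase n, |((P.coeff i : ℤ) : ℝ)| * x ^ n := by
          refine Finset.sum_le_sum fun i hi => ?_
          refine mul_le_mul_of_nonneg_left ?_ (abs_nonneg _)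
          refine pow_le_pow_right₀ hx1 ?_
          have h4 := Polynomial.le_natDegree_of_mem_supp i (Finset.mem_of_mem_erase hi)
          have h5 := Finset.ne_of_mem_erase hi
          omega
      _ = (∑ i ∈ P.support.erase n, |((P.coeff i : ℤ) : ℝ)|) * x ^ n := by
          rw [Finset.sum_mul]
  have hxn : 0 < x ^ n := pow_pos (by linarith) n
  have h3 : |((P.coeff n : ℤ) : ℝ)| * x ≤ ∑ i ∈ P.support.erase n, |((P.coeff i : ℤ) : ℝ)| := by
    refine le_of_mul_le_mul_right ?_ hxn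
    linarith
  have h4 : x ≤ |((P.coeff n : ℤ) : ℝ)| * x := le_mul_of_one_le_left (by linarith) hlead
  linarith

/-- the norm of an evaluation -/
private theorem gp_abs_eval_le (a : Polynomial ℤ) (c : ℕ) :
    |((Polynomial.eval (c : ℤ) a : ℤ) : ℝ)| ≤ pnorm (fun a : ℤ => |(a : ℝ)|) (c : ℝ) a := by
  rw [Polynomial.eval_eq_sum, Polynomial.sum_def]
  push_cast
  unfold pnorm
  refine (Finset.abs_sum_le_sum_abs _ _).trans (Finset.sum_le_sum fun i _ => ?_)
  rw [abs_mul, abs_of_nonneg (show (0 : ℝ) ≤ (c : ℝ) ^ i from pow_nonneg (Nat.cast_nonneg c) i)]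

/-- the values of the relation at a large integer and a large real -/
private theorem gp_relation_ne {χ : Polynomial (Polynomial ℤ)} (hχ : χ ≠ 0) {c : ℕ} {x : ℝ}
    (hc : pnorm (pnorm (fun a : ℤ => |(a : ℝ)|) 1) 1 χ ≤ c)
    (hx : pnorm (pnorm (fun a : ℤ => |(a : ℝ)|) (c : ℝ)) 1 χ ≤ x) :
    Polynomial.eval (c : ℝ) (Polynomial.eval (Polynomial.C x)
      (χ.map (Polynomial.mapRingHom (Int.castRingHom ℝ)))) ≠ 0 := by
  have hnorm : ∀ u : ℝ, 0 ≤ u → ∀ a : Polynomial ℤ,
      0 ≤ pnorm (fun a : ℤ => |(a : ℝ)|) u a := fun u hu a =>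
    Finset.sum_nonneg fun i _ => mul_nonneg (abs_nonneg _) (pow_nonneg hu i)
  set P : Polynomial ℤ := χ.map (Polynomial.evalRingHom (c : ℤ)) with hPdef
  have hcoeff : ∀ k, P.coeff k = Polynomial.eval (c : ℤ) (χ.coeff k) := by
    intro k
    rw [hPdef, Polynomial.coeff_map]
    rfl
  have hP : P ≠ 0 := by
    intro h0
    have hlead : χ.coeff χ.natDegree ≠ 0 := by
      rw [Polynomial.coeff_natDegree]
      exact Polynomial.leadingCoeff_ne_zero.2 hχ
    have h1 : pnorm (fun a : ℤ => |(a : ℝ)|) 1 (χ.coeff χ.natDegree) ≤ c := by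
      refine le_trans ?_ hc
      have h2 := Finset.single_le_sum (s := χ.support)
        (f := fun i => pnorm (fun a : ℤ => |(a : ℝ)|) 1 (χ.coeff i) * (1 : ℝ) ^ i)
        (fun i _ => mul_nonneg (hnorm 1 zero_le_one _) (pow_nonneg zero_le_one i))
        (Polynomial.natDegree_mem_support_of_nonzero hχ)
      simpa [pnorm] using h2
    refine gp_root_bound hlead h1 ?_
    have h3 : Polynomial.eval (c : ℤ) (χ.coeff χ.natDegree) = 0 := by
      rw [← hcoeff, h0, Polynomial.coeff_zero]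
    have h4 := congrArg (Int.castRingHom ℝ) h3
    rw [map_zero, ← Polynomial.eval_map_apply] at h4
    simpa using h4
  have hPn : pnorm (fun a : ℤ => |(a : ℝ)|) 1 P ≤ x := by
    refine le_trans ?_ hx
    have h1 : P.support ⊆ χ.support := Polynomial.support_map_subset _ _
    calc pnorm (fun a : ℤ => |(a : ℝ)|) 1 P = ∑ i ∈ P.support, |((P.coeff i : ℤ) : ℝ)| := by
          simp [pnorm]
      _ ≤ ∑ i ∈ χ.support, |((P.coeff i : ℤ) : ℝ)| :=
          Finset.sum_le_sum_of_subset_of_nonneg h1 fun i _ _ => abs_nonneg _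
      _ ≤ ∑ i ∈ χ.support, pnorm (fun a : ℤ => |(a : ℝ)|) (c : ℝ) (χ.coeff i) * (1 : ℝ) ^ i := by
          refine Finset.sum_le_sum fun i _ => ?_
          rw [hcoeff, one_pow, mul_one]
          exact gp_abs_eval_le _ _
      _ = pnorm (pnorm (fun a : ℤ => |(a : ℝ)|) (c : ℝ)) 1 χ := rfl
  have hroot := gp_root_bound hP hPn
  intro h0
  refine hroot ?_
  have h1 : (χ.map (Polynomial.mapRingHom (Int.castRingHom ℝ))).map
      (Polynomial.evalRingHom (c : ℝ)) = P.map (Int.castRingHom ℝ) := by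
    rw [hPdef, Polynomial.map_map, Polynomial.map_map]
    congr 1
    refine Polynomial.ringHom_ext (fun a => by simp) (by simp)
  rw [← h1]
  have h2 : Polynomial.eval (Polynomial.evalRingHom (c : ℝ) (Polynomial.C x))
      ((χ.map (Polynomial.mapRingHom (Int.castRingHom ℝ))).map
        (Polynomial.evalRingHom (c : ℝ))) = 0 := by
    rw [Polynomial.eval_map_apply]
    exact h0
  simpa using h2

/-- value of the perturbed function -/
private theorem gp_eval_gG (e : ℕ) (L : ℝ) (p : MvPolynomial (Fin N) ℝ) (x : Fin N → ℝ) :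
    eval x (gG e L 0 p) = 2 * e * L * eval x p + ∑ i, x i ^ (2 * e) := by
  simp [gG]

/-- no small values without zeros -/
theorem gap_pos {e : ℕ} (he : 2 ≤ e) {p : MvPolynomial (Fin N) ℤ} (hp : p.totalDegree < 2 * e)
    {Q : ℕ} (hQ : l1 p ≤ Q) (hpos : ∀ x, 0 ≤ eval x (toR p)) {c : ℕ}
    (hc : (1 + thU N e Q 1 0) ^ ((2 * e - 1) ^ N) + 1 < c) {L : ℝ}
    (hL : (((c + thU N e Q 1 0) ^ ((2 * e - 1) ^ N) + 1 : ℕ) : ℝ) < L) (x : Fin N → ℝ)
    (hx : 2 * e * L * eval x (toR p) + ∑ i, x i ^ (2 * e) < c) : ∃ z, eval z (toR p) = 0 := by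
  by_contra hno
  push Not at hno
  have hpos' : ∀ x, 0 < eval x (toR p) := fun x => lt_of_le_of_ne (hpos x) (Ne.symm (hno x))
  obtain ⟨χ, hχ0, hχn, hχ⟩ := exists_gapPoly he hp hQ
  have hL1 : 1 < L := by
    refine lt_of_le_of_lt ?_ hL
    push_cast
    have : (0 : ℝ) ≤ ((c : ℝ) + (thU N e Q 1 0 : ℕ)) ^ ((2 * e - 1) ^ N) := by positivity
    linarith
  have he0 : (0 : ℝ) < e := by
    have : 0 < e := by omega
    exact_mod_cast this
  -- the minimisers
  have hmin : ∀ l : ℝ, ∃ ξ : Fin N → ℝ, 0 ≤ l →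
      ((∀ x, eval ξ (gG e l 0 (toR p)) ≤ eval x (gG e l 0 (toR p))) ∧
      ∀ i, eval ξ (Fs (2 * e - 1) (gH l 0 (toR p)) i) = 0) := by
    intro l
    by_cases hl : 0 ≤ l
    · obtain ⟨ξ, h⟩ := exists_min he hpos hl 0
      exact ⟨ξ, fun _ => h⟩
    · exact ⟨0, fun h => absurd h hl⟩
  choose ξ hξ using hmin
  set m : ℝ → ℝ := fun l => 2 * e * l * eval (ξ l) (toR p) + ∑ i, ξ l i ^ (2 * e) with hm
  have hsum : ∀ y : Fin N → ℝ, 0 ≤ ∑ i, y i ^ (2 * e) := fun y =>
    Finset.sum_nonneg fun i _ => by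
      rw [pow_mul]
      positivity
  have hmle : ∀ l, 0 ≤ l → ∀ y, m l ≤ 2 * e * l * eval y (toR p) + ∑ i, y i ^ (2 * e) := by
    intro l hl y
    have h := (hξ l hl).1 y
    rw [gp_eval_gG, gp_eval_gG] at h
    exact h
  have hm0 : ∀ l, 0 ≤ l → 0 ≤ m l := by
    intro l hl
    have h1 := hsum (ξ l)
    have h2 := hpos (ξ l)
    have h3 : 0 ≤ 2 * e * l * eval (ξ l) (toR p) := by positivity
    show 0 ≤ 2 * e * l * eval (ξ l) (toR p) + ∑ i, ξ l i ^ (2 * e)
    linarith
  have hmono : ∀ l l', 0 ≤ l → l ≤ l' → m l ≤ m l' := by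
    intro l l' hl hll
    refine (hmle l hl (ξ l')).trans ?_
    show _ ≤ 2 * e * l' * eval (ξ l') (toR p) + ∑ i, ξ l' i ^ (2 * e)
    have h1 : 2 * e * l * eval (ξ l') (toR p) ≤ 2 * e * l' * eval (ξ l') (toR p) :=
      mul_le_mul_of_nonneg_right (mul_le_mul_of_nonneg_left hll (by positivity)) (hpos _)
    linarith
  have hlip : ∀ l l', 1 ≤ l → l ≤ l' → m l' ≤ m l + (l' - l) * m l := by
    intro l l' hl hll
    refine (hmle l' (by linarith) (ξ l)).trans ?_
    have h1 := hsum (ξ l)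
    have h2 := hpos (ξ l)
    have h3 : 2 * e * eval (ξ l) (toR p) ≤ m l := by
      show _ ≤ 2 * e * l * eval (ξ l) (toR p) + ∑ i, ξ l i ^ (2 * e)
      have h4 : 2 * e * eval (ξ l) (toR p) * 1 ≤ 2 * e * eval (ξ l) (toR p) * l :=
        mul_le_mul_of_nonneg_left hl (by positivity)
      linarith
    have h5 : (l' - l) * (2 * e * eval (ξ l) (toR p)) ≤ (l' - l) * m l :=
      mul_le_mul_of_nonneg_left h3 (by linarith)
    show _ ≤ (2 * e * l * eval (ξ l) (toR p) + ∑ i, ξ l i ^ (2 * e)) + (l' - l) * m l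
    linarith
  -- the values tend to infinity
  obtain ⟨L1, hLL1, hbig⟩ : ∃ L1, L ≤ L1 ∧ (c : ℝ) ≤ m L1 := by
    have hcomp : IsCompact {y : Fin N → ℝ | ∑ i, y i ^ (2 * e) ≤ c} := by
      refine IsCompact.of_isClosed_subset
        (isCompact_Icc (a := fun _ : Fin N => -((c : ℝ) + 1)) (b := fun _ : Fin N => (c : ℝ) + 1))
        ?_ ?_
      · exact isClosed_le (by fun_prop) continuous_const
      · intro y hy
        have hy' : ∑ i, y i ^ (2 * e) ≤ (c : ℝ) := hy
        have hyi : ∀ i, |y i| ≤ (c : ℝ) + 1 := by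
          intro i
          by_contra hcon
          push Not at hcon
          have h1 : y i ^ (2 * e) ≤ ∑ i, y i ^ (2 * e) :=
            Finset.single_le_sum (f := fun i => y i ^ (2 * e)) (fun j _ => by
              show 0 ≤ y j ^ (2 * e)
              rw [pow_mul]
              positivity) (Finset.mem_univ i)
          have h2 : |y i| ≤ y i ^ (2 * e) := by
            have h3 : y i ^ (2 * e) = |y i| ^ (2 * e) := by
              rw [pow_mul, pow_mul, sq_abs]
            rw [h3]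
            have h4 : (1 : ℝ) ≤ |y i| := by
              have : (0 : ℝ) ≤ c := Nat.cast_nonneg c
              linarith
            exact le_self_pow₀ h4 (by omega)
          linarith
        exact ⟨fun i => (abs_le.1 (hyi i)).1, fun i => (abs_le.1 (hyi i)).2⟩
    have hne : {y : Fin N → ℝ | ∑ i, y i ^ (2 * e) ≤ c}.Nonempty := by
      refine ⟨0, ?_⟩
      show ∑ i, (0 : Fin N → ℝ) i ^ (2 * e) ≤ c
      have h1 : 2 * e ≠ 0 := by omega
      simp [h1]
    obtain ⟨y0, _, hy0⟩ := hcomp.exists_isMinOn hne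
      (f := fun y => eval y (toR p)) (MvPolynomial.continuous_eval _).continuousOn
    set δ := eval y0 (toR p) with hδ
    have hδ0 : 0 < δ := hpos' y0
    refine ⟨max L (c / (2 * e * δ)), le_max_left _ _, ?_⟩
    set L1 := max L (c / (2 * e * δ)) with hL1def
    have hL1' : (c : ℝ) ≤ 2 * e * L1 * δ := by
      have h1 : c / (2 * e * δ) ≤ L1 := le_max_right _ _
      rw [div_le_iff₀ (by positivity)] at h1
      linarith
    have hL10 : 0 ≤ L1 := le_trans (by linarith) (le_max_left L (c / (2 * e * δ)))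
    show (c : ℝ) ≤ 2 * e * L1 * eval (ξ L1) (toR p) + ∑ i, ξ L1 i ^ (2 * e)
    by_cases hin : ∑ i, ξ L1 i ^ (2 * e) ≤ c
    · have h1 : δ ≤ eval (ξ L1) (toR p) := hy0 hin
      have h2 : 2 * e * L1 * δ ≤ 2 * e * L1 * eval (ξ L1) (toR p) :=
        mul_le_mul_of_nonneg_left h1 (by positivity)
      have h3 := hsum (ξ L1)
      linarith
    · push Not at hin
      have h2 := hpos (ξ L1)
      have h3 : 0 ≤ 2 * e * L1 * eval (ξ L1) (toR p) := by positivity
      linarith
  -- continuity and the intermediate value theorem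
  have hcont : ContinuousOn m (Set.Icc L L1) := by
    have hK : LipschitzOnWith (Real.toNNReal (m L1)) m (Set.Icc L L1) := by
      refine LipschitzOnWith.of_dist_le_mul ?_
      have key : ∀ a b, a ∈ Set.Icc L L1 → b ∈ Set.Icc L L1 → a ≤ b →
          |m b - m a| ≤ m L1 * |b - a| := by
        intro a b ha hb hab
        have h1 := hmono a b (by linarith [ha.1]) hab
        have h2 := hlip a b (by linarith [ha.1]) hab
        have h3 := hmono a L1 (by linarith [ha.1]) ha.2
        rw [abs_of_nonneg (by linarith), abs_of_nonneg (by linarith)]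
        have h4 : (b - a) * m a ≤ (b - a) * m L1 := mul_le_mul_of_nonneg_left h3 (by linarith)
        linarith
      intro a ha b hb
      rw [Real.dist_eq, Real.dist_eq, Real.coe_toNNReal _ (hm0 L1 (by linarith))]
      rcases le_total a b with hab | hab
      · rw [abs_sub_comm, abs_sub_comm a b]
        exact key a b ha hb hab
      · exact key b a hb ha hab
    exact hK.continuousOn
  have hmL : m L ≤ c := ((hmle L (by linarith) x).trans hx.le)
  obtain ⟨l, hl, hml⟩ := intermediate_value_Icc hLL1 hcont ⟨hmL, hbig⟩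
  have hl0 : 0 ≤ l := by linarith [hl.1]
  have hrel := hχ l (ξ l) (hξ l hl0).2
  have hval : eval (ξ l) (gG e l 0 (toR p)) = (c : ℝ) := by
    rw [gp_eval_gG]
    exact hml
  rw [hval] at hrel
  refine gp_relation_ne hχ0 ?_ ?_ hrel
  · refine (hχn 1 zero_le_one).trans ?_
    have h1 : ((1 + thU N e Q 1 0) ^ ((2 * e - 1) ^ N) : ℕ) ≤ c := by omega
    have h2 : (((1 + thU N e Q 1 0) ^ ((2 * e - 1) ^ N) : ℕ) : ℝ) ≤ c := by exact_mod_cast h1
    push_cast at h2
    exact h2
  · refine (hχn c (Nat.cast_nonneg c)).trans ?_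
    push_cast at hL
    linarith [hl.1]

end Vale.Agent.P337
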