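import Mathlib
import Vale.Agent.Lib.P337.Real.GapPoly
import Vale.Agent.Lib.P337.Real.Min

/-!
P337, real side: bounded zeros.
-/

namespace Vale.Agent.P337

open MvPolynomial Filter Topology

variable {N : ℕ}

/-- Cauchy bound for real roots of integer polynomials -/
theorem gapZero_root_le {a : Polynomial ℤ} (ha : a ≠ 0) {c V : ℝ}
    (hV : pnorm (fun a : ℤ => |(a : ℝ)|) 1 a ≤ V)
    (hc : Polynomial.eval c (a.map (Int.castRingHom ℝ)) = 0) : c ≤ V + 1 := by
  by_contra hcon
  have hcon : V + 1 < c := not_le.mp hcon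
  have hpn : 0 ≤ pnorm (fun a : ℤ => |(a : ℝ)|) 1 a := by
    unfold pnorm
    exact Finset.sum_nonneg fun i _ => by positivity
  have hc1 : 1 < c := by linarith
  have hc0 : 0 < c := by linarith
  set m := a.natDegree with hm
  have hev : ∑ i ∈ Finset.range (m + 1), (a.coeff i : ℝ) * c ^ i = 0 := by
    rw [Polynomial.eval_map, Polynomial.eval₂_eq_sum_range] at hc
    simpa using hc
  rw [Finset.sum_range_succ] at hev
  have hlead : (1 : ℝ) ≤ |(a.coeff m : ℝ)| := by
    have h1 : a.coeff m ≠ 0 := by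
      rw [hm]
      exact Polynomial.leadingCoeff_ne_zero.mpr ha
    have h2 : 1 ≤ |a.coeff m| := Int.one_le_abs h1
    exact_mod_cast h2
  have hsupp : ∑ i ∈ Finset.range (m + 1), |(a.coeff i : ℝ)| =
      pnorm (fun a : ℤ => |(a : ℝ)|) 1 a := by
    unfold pnorm
    have hsub : a.support ⊆ Finset.range (m + 1) := by
      rw [hm]
      exact Polynomial.supp_subset_range (Nat.lt_succ_self _)
    rw [← Finset.sum_subset hsub]
    · simp
    · intro i _ hi
      rw [Polynomial.notMem_support_iff] at hi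
      simp [hi]
  rw [Finset.sum_range_succ] at hsupp
  rcases Nat.eq_zero_or_pos m with h0 | hpos
  · rw [h0] at hev hlead
    simp only [Finset.range_zero, Finset.sum_empty, pow_zero, mul_one, zero_add] at hev
    rw [hev] at hlead
    simp at hlead
    linarith
  · have hbd : c ^ m ≤ V * c ^ (m - 1) := by
      have h1 : |(a.coeff m : ℝ) * c ^ m| =
          |∑ i ∈ Finset.range m, (a.coeff i : ℝ) * c ^ i| := by
        have : (a.coeff m : ℝ) * c ^ m = -(∑ i ∈ Finset.range m, (a.coeff i : ℝ) * c ^ i) := by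
          linarith
        rw [this, abs_neg]
      have h2 : |∑ i ∈ Finset.range m, (a.coeff i : ℝ) * c ^ i| ≤
          ∑ i ∈ Finset.range m, |(a.coeff i : ℝ)| * c ^ (m - 1) := by
        refine (Finset.abs_sum_le_sum_abs _ _).trans (Finset.sum_le_sum fun i hi => ?_)
        rw [abs_mul, abs_of_pos (pow_pos hc0 i)]
        refine mul_le_mul_of_nonneg_left ?_ (abs_nonneg _)
        refine pow_le_pow_right₀ hc1.le ?_
        have := Finset.mem_range.mp hi
        omega
      rw [abs_mul, abs_of_pos (pow_pos hc0 m)] at h1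
      rw [← Finset.sum_mul] at h2
      have h3 : c ^ m ≤ |(a.coeff m : ℝ)| * c ^ m :=
        le_mul_of_one_le_left (pow_pos hc0 m).le hlead
      have h4 : (∑ i ∈ Finset.range m, |(a.coeff i : ℝ)|) * c ^ (m - 1) ≤ V * c ^ (m - 1) := by
        refine mul_le_mul_of_nonneg_right ?_ (pow_pos hc0 _).le
        have := abs_nonneg ((a.coeff m : ℝ))
        linarith
      linarith
    have hpw : c ^ m = c * c ^ (m - 1) := by
      rw [← pow_succ']
      congr 1
      omega
    rw [hpw] at hbd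
    have := le_of_mul_le_mul_right hbd (pow_pos hc0 (m - 1))
    linarith

/-- the leading coefficient vanishes at the limit -/
theorem gapZero_lead {P : Polynomial (Polynomial ℝ)} {k : ℕ} (hk : P.natDegree ≤ k)
    {L c : ℕ → ℝ} {c₀ : ℝ} (hL : Tendsto L atTop atTop) (hc : Tendsto c atTop (𝓝 c₀))
    (h0 : ∀ n, Polynomial.eval (c n) (Polynomial.eval (Polynomial.C (L n)) P) = 0) :
    (P.coeff k).eval c₀ = 0 := by
  have hexp : ∀ n, ∑ i ∈ Finset.range (k + 1), (P.coeff i).eval (c n) * L n ^ i = 0 := by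
    intro n
    have h := h0 n
    rw [Polynomial.eval_eq_sum_range' (Nat.lt_succ_of_le hk), Polynomial.eval_finsetSum] at h
    simpa using h
  have hlim : Tendsto (fun n => ∑ i ∈ Finset.range (k + 1),
      (P.coeff i).eval (c n) * (L n ^ i / L n ^ k)) atTop
      (𝓝 (∑ i ∈ Finset.range (k + 1), if i = k then (P.coeff k).eval c₀ else 0)) := by
    refine tendsto_finsetSum _ fun i hi => ?_
    have hci : Tendsto (fun n => (P.coeff i).eval (c n)) atTop (𝓝 ((P.coeff i).eval c₀)) :=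
      ((P.coeff i).continuous.tendsto c₀).comp hc
    have hik : i ≤ k := Nat.lt_succ_iff.mp (Finset.mem_range.mp hi)
    rcases hik.lt_or_eq with h | h
    · rw [if_neg h.ne]
      have h2 : Tendsto (fun n => L n ^ i / L n ^ k) atTop (𝓝 0) :=
        (tendsto_pow_div_pow_atTop_zero h).comp hL
      simpa using hci.mul h2
    · subst h
      rw [if_pos rfl]
      have h2 : Tendsto (fun n => L n ^ i / L n ^ i) atTop (𝓝 1) := by
        refine Tendsto.congr' ?_ tendsto_const_nhds
        filter_upwards [hL.eventually_gt_atTop 0] with n hn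
        exact (div_self (pow_pos hn i).ne').symm
      simpa using hci.mul h2
  have hz : (fun n => ∑ i ∈ Finset.range (k + 1),
      (P.coeff i).eval (c n) * (L n ^ i / L n ^ k)) = fun _ => (0 : ℝ) := by
    funext n
    have h := hexp n
    have : ∑ i ∈ Finset.range (k + 1), (P.coeff i).eval (c n) * (L n ^ i / L n ^ k) =
        (∑ i ∈ Finset.range (k + 1), (P.coeff i).eval (c n) * L n ^ i) / L n ^ k := by
      rw [Finset.sum_div]
      exact Finset.sum_congr rfl fun i _ => by ring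
    rw [this, h, zero_div]
  rw [hz] at hlim
  have := tendsto_nhds_unique hlim tendsto_const_nhds
  rw [Finset.sum_ite_eq'] at this
  simpa using this

theorem gapZero_eval_gG (e : ℕ) (L : ℝ) (p : MvPolynomial (Fin N) ℝ) (x : Fin N → ℝ) :
    eval x (gG e L 0 p) = 2 * e * L * eval x p + ∑ i, x i ^ (2 * e) := by
  simp [gG]

/-- a bounded zero -/
theorem gap_zero {e : ℕ} (he : 2 ≤ e) {p : MvPolynomial (Fin N) ℤ} (hp : p.totalDegree < 2 * e)
    {Q : ℕ} (hQ : l1 p ≤ Q) (hpos : ∀ x, 0 ≤ eval x (toR p)) (hz : ∃ x, eval x (toR p) = 0) :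
    ∃ x : Fin N → ℝ, eval x (toR p) = 0 ∧
      ∑ i, x i ^ (2 * e) ≤ ((1 + thU N e Q 1 0) ^ ((2 * e - 1) ^ N) + 1 : ℕ) := by
  obtain ⟨χ, hχ0, hχn, hχ⟩ := exists_gapPoly he hp hQ
  obtain ⟨z, hz⟩ := hz
  have hmin : ∀ n : ℕ, ∃ ξ : Fin N → ℝ,
      (∀ x, eval ξ (gG e (n : ℝ) 0 (toR p)) ≤ eval x (gG e (n : ℝ) 0 (toR p))) ∧
      ∀ i, eval ξ (Fs (2 * e - 1) (gH (n : ℝ) 0 (toR p)) i) = 0 := fun n =>
    exists_min he hpos (Nat.cast_nonneg n) 0
  choose ξ hξ1 hξ2 using hmin
  have hev : Even (2 * e) := even_two_mul e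
  have hterm : ∀ (x : Fin N → ℝ) (i : Fin N), 0 ≤ x i ^ (2 * e) := fun x i => hev.pow_nonneg _
  set M : ℝ := ∑ i, z i ^ (2 * e) with hM
  have hM0 : 0 ≤ M := Finset.sum_nonneg fun i _ => hterm z i
  have hup : ∀ n : ℕ, 2 * e * (n : ℝ) * eval (ξ n) (toR p) + ∑ i, ξ n i ^ (2 * e) ≤ M := by
    intro n
    have h := hξ1 n z
    rw [gapZero_eval_gG, gapZero_eval_gG, hz, mul_zero, zero_add] at h
    exact h
  have hfirst : ∀ n : ℕ, 0 ≤ 2 * e * (n : ℝ) * eval (ξ n) (toR p) := fun n =>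
    mul_nonneg (by positivity) (hpos _)
  have hsum : ∀ n : ℕ, ∑ i, ξ n i ^ (2 * e) ≤ M := fun n => by
    have := hup n
    have := hfirst n
    linarith
  have hcoord : ∀ n i, ξ n i ∈ Set.Icc (-(1 + M)) (1 + M) := by
    intro n i
    have h1 : ξ n i ^ (2 * e) ≤ M :=
      (Finset.single_le_sum (fun j _ => hterm (ξ n) j) (Finset.mem_univ i)).trans (hsum n)
    have h2 : |ξ n i| ≤ 1 + M := by
      rcases le_or_gt |ξ n i| 1 with h | h
      · linarith
      · have h3 : |ξ n i| ≤ |ξ n i| ^ (2 * e) := le_self_pow₀ h.le (by omega)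
        rw [hev.pow_abs] at h3
        linarith
    exact abs_le.mp h2
  have hcomp : IsCompact (Set.pi Set.univ fun _ : Fin N => Set.Icc (-(1 + M)) (1 + M)) :=
    isCompact_univ_pi fun _ => isCompact_Icc
  obtain ⟨x, -, φ, hφ, hlim⟩ := hcomp.tendsto_subseq (x := ξ) fun n i _ => hcoord n i
  have hφt : Tendsto (fun n => ((φ n : ℕ) : ℝ)) atTop atTop :=
    tendsto_natCast_atTop_atTop.comp hφ.tendsto_atTop
  have hpc : Tendsto (fun n => eval (ξ (φ n)) (toR p)) atTop (𝓝 (eval x (toR p))) :=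
    ((MvPolynomial.continuous_eval (toR p)).tendsto x).comp hlim
  have hfc : Tendsto (fun n => ∑ i, ξ (φ n) i ^ (2 * e)) atTop (𝓝 (∑ i, x i ^ (2 * e))) := by
    have hcont : Continuous fun y : Fin N → ℝ => ∑ i, y i ^ (2 * e) := by fun_prop
    exact (hcont.tendsto x).comp hlim
  have hpz : eval x (toR p) = 0 := by
    refine le_antisymm ?_ (hpos x)
    have hle : ∀ᶠ n in atTop, eval (ξ (φ n)) (toR p) ≤ M / ((φ n : ℕ) : ℝ) := by
      filter_upwards [hφt.eventually_gt_atTop 0] with n hn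
      rw [le_div_iff₀ hn]
      have h1 := hup (φ n)
      have h2 : 0 ≤ ∑ i, ξ (φ n) i ^ (2 * e) := Finset.sum_nonneg fun i _ => hterm _ i
      have h3 : (1 : ℝ) ≤ 2 * e := by
        have : (2 : ℝ) ≤ e := by exact_mod_cast he
        linarith
      have h4 : 0 ≤ ((φ n : ℕ) : ℝ) * eval (ξ (φ n)) (toR p) := mul_nonneg hn.le (hpos _)
      nlinarith [mul_le_mul_of_nonneg_right h3 h4]
    have hlim0 : Tendsto (fun n => M / ((φ n : ℕ) : ℝ)) atTop (𝓝 0) :=
      tendsto_const_nhds.div_atTop hφt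
    exact le_of_tendsto_of_tendsto hpc hlim0 hle
  have hup2 : ∀ n : ℕ, eval (ξ n) (gG e (n : ℝ) 0 (toR p)) ≤ ∑ i, x i ^ (2 * e) := by
    intro n
    have h := hξ1 n x
    rw [gapZero_eval_gG e _ _ x, hpz, mul_zero, zero_add] at h
    exact h
  have hclim : Tendsto (fun n => eval (ξ (φ n)) (gG e ((φ n : ℕ) : ℝ) 0 (toR p))) atTop
      (𝓝 (∑ i, x i ^ (2 * e))) := by
    refine tendsto_of_tendsto_of_tendsto_of_le_of_le hfc tendsto_const_nhds ?_ ?_
    · intro n
      have := hfirst (φ n)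
      simp only [gapZero_eval_gG]
      linarith
    · intro n
      exact hup2 (φ n)
  have hdeg : (χ.map (Polynomial.mapRingHom (Int.castRingHom ℝ))).natDegree ≤ χ.natDegree :=
    Polynomial.natDegree_map_le
  have hroot := gapZero_lead hdeg hφt hclim fun n => hχ _ _ (hξ2 (φ n))
  rw [Polynomial.coeff_map] at hroot
  refine ⟨x, hpz, ?_⟩
  have hlc : χ.coeff χ.natDegree ≠ 0 := Polynomial.leadingCoeff_ne_zero.mpr hχ0
  have hpn : pnorm (fun a : ℤ => |(a : ℝ)|) 1 (χ.coeff χ.natDegree) ≤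
      (1 + (thU N e Q 1 0 : ℕ) : ℝ) ^ ((2 * e - 1) ^ N) := by
    refine le_trans ?_ (hχn 1 zero_le_one)
    have houter : pnorm (pnorm (fun a : ℤ => |(a : ℝ)|) 1) 1 χ =
        ∑ i ∈ χ.support, pnorm (fun a : ℤ => |(a : ℝ)|) 1 (χ.coeff i) * 1 ^ i := rfl
    rw [houter]
    simp only [one_pow, mul_one]
    refine Finset.single_le_sum (f := fun i => pnorm (fun a : ℤ => |(a : ℝ)|) 1 (χ.coeff i))
      (fun i _ => ?_) ?_
    · unfold pnorm
      exact Finset.sum_nonneg fun j _ => by positivity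
    · rw [Polynomial.mem_support_iff]
      exact hlc
  have := gapZero_root_le hlc hpn hroot
  push_cast
  exact this

end Vale.Agent.P337
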