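import Mathlib

/-!
P337, real side: Hankel matrices of power sums.
-/

namespace Vale.Agent.P337

/-- Hankel matrix of the power sums of a matrix -/
def hank {R n : Type} [CommRing R] [Fintype n] [DecidableEq n] (D : ℕ) (M : Matrix n n R) :
    Matrix (Fin D) (Fin D) R := Matrix.of fun i j => (M ^ ((i : ℕ) + j)).trace

section Hank

open Polynomial

variable {n : Type} [Fintype n] [DecidableEq n]

theorem hank_card_roots (M : Matrix n n ℂ) :
    Multiset.card M.charpoly.roots = Fintype.card n := by
  rw [IsAlgClosed.card_roots_eq_natDegree, Matrix.charpoly_natDegree_eq_dim]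

theorem hank_eval_charpoly (M : Matrix n n ℂ) (a : ℂ) :
    M.charpoly.eval a = (M.charpoly.roots.map fun b => a - b).prod := by
  have h := (IsAlgClosed.splits M.charpoly).eq_prod_roots_of_monic M.charpoly_monic
  conv_lhs => rw [h]
  rw [eval_multiset_prod, Multiset.map_map]
  congr 1
  apply Multiset.map_congr rfl
  intro b _
  simp

theorem hank_det_sub (M : Matrix n n ℂ) (a : ℂ) :
    (aeval M (X - C a)).det = (M.charpoly.roots.map fun b => b - a).prod := by
  have h1 : aeval M (X - C a) = -(Matrix.scalar n a - M) := by
    rw [map_sub, aeval_X, aeval_C, neg_sub]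
    rfl
  rw [h1, Matrix.det_neg, ← Matrix.eval_charpoly, hank_eval_charpoly, ← hank_card_roots M,
    ← Multiset.prod_replicate, ← Multiset.map_const', ← Multiset.prod_map_mul]
  congr 1
  apply Multiset.map_congr rfl
  intro b _
  ring

theorem hank_det_aeval (M : Matrix n n ℂ) (q : ℂ[X]) :
    (aeval M q).det = (M.charpoly.roots.map fun b => q.eval b).prod := by
  have key : ∀ s : Multiset ℂ, (aeval M ((s.map fun a => X - C a).prod)).det =
      (M.charpoly.roots.map fun b => ((s.map fun a => X - C a).prod).eval b).prod := by
    intro s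
    induction s using Multiset.induction with
    | empty => simp
    | cons a s ih =>
      rw [Multiset.map_cons, Multiset.prod_cons, map_mul, Matrix.det_mul, ih, hank_det_sub,
        ← Multiset.prod_map_mul]
      congr 1
      apply Multiset.map_congr rfl
      intro b _
      rw [eval_mul]
      simp
  have h := (IsAlgClosed.splits q).eq_prod_roots
  rw [h, map_mul, Matrix.det_mul, key, aeval_C]
  have h2 : (algebraMap ℂ (Matrix n n ℂ) q.leadingCoeff).det =
      (M.charpoly.roots.map fun _ => q.leadingCoeff).prod := by
    rw [Multiset.map_const', Multiset.prod_replicate, hank_card_roots,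
      Matrix.algebraMap_eq_diagonal, Matrix.det_diagonal]
    simp
  rw [h2, ← Multiset.prod_map_mul]
  congr 1
  apply Multiset.map_congr rfl
  intro b _
  rw [eval_mul, eval_C]

theorem hank_charpoly_pow (M : Matrix n n ℂ) (k : ℕ) :
    (M ^ k).charpoly = ((M.charpoly.roots.map fun b => b ^ k).map fun a => X - C a).prod := by
  apply Polynomial.funext
  intro x
  rw [Matrix.eval_charpoly, eval_multiset_prod, Multiset.map_map, Multiset.map_map]
  have h1 : Matrix.scalar n x - M ^ k = aeval M (C x - X ^ k) := by
    rw [map_sub, map_pow, aeval_X, aeval_C]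
    rfl
  rw [h1, hank_det_aeval]
  congr 1
  apply Multiset.map_congr rfl
  intro b _
  simp

theorem hank_trace_pow (M : Matrix n n ℂ) (k : ℕ) :
    (M ^ k).trace = (M.charpoly.roots.map fun b => b ^ k).sum := by
  rw [Matrix.trace_eq_sum_roots_charpoly, hank_charpoly_pow, roots_multiset_prod_X_sub_C]

theorem hank_list_sum (l : List ℂ) (m : ℕ) :
    (l.map fun b => b ^ m).sum = ∑ k, l.get k ^ m := by
  have h : l.map (fun b => b ^ m) = List.ofFn fun k => l.get k ^ m := by
    conv_lhs => rw [← List.ofFn_get l]
    rw [List.map_ofFn]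
    rfl
  rw [h, List.sum_ofFn]

end Hank

theorem hank_det_ne_zero_iff {n : Type} [Fintype n] [DecidableEq n] {D : ℕ}
    (hD : Fintype.card n = D) (M : Matrix n n ℂ) :
    (hank D M).det ≠ 0 ↔ M.charpoly.roots.Nodup := by
  obtain ⟨l, hl⟩ := Quot.exists_rep M.charpoly.roots
  have hl' : (l : Multiset ℂ) = M.charpoly.roots := hl
  have hlen : l.length = D := by
    rw [← hD, ← hank_card_roots M, ← hl', Multiset.coe_card]
  subst hlen
  have hh : hank l.length M = (Matrix.vandermonde l.get).transpose * Matrix.vandermonde l.get := by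
    ext i j
    rw [Matrix.vandermonde_transpose_mul_vandermonde]
    show (M ^ ((i : ℕ) + j)).trace = _
    rw [hank_trace_pow, ← hl', Multiset.map_coe, Multiset.sum_coe]
    exact hank_list_sum l _
  rw [hh, Matrix.det_mul, Matrix.det_transpose, mul_self_ne_zero,
    Matrix.det_vandermonde_ne_zero_iff, ← hl', Multiset.coe_nodup, List.nodup_iff_injective_get]

end Vale.Agent.P337
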