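import Mathlib

/-!
P337, real side: sums over roots of unity.
-/

namespace Vale.Agent.P337

variable {N : ℕ}

private theorem om_pow_sub {a b : ℂ} (ha : ‖a‖ = 1) (hb : ‖b‖ = 1) (m : ℕ) :
    ‖a ^ m - b ^ m‖ ≤ m * ‖a - b‖ := by
  rw [← (Commute.all a b).geom_sum₂_mul m, norm_mul]
  refine mul_le_mul_of_nonneg_right ?_ (norm_nonneg _)
  refine (norm_sum_le _ _).trans ?_
  have h : ∀ i ∈ Finset.range m, ‖a ^ i * b ^ (m - 1 - i)‖ ≤ 1 := by
    intro i _
    rw [norm_mul, norm_pow, norm_pow, ha, hb, one_pow, one_pow, one_mul]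
  refine (Finset.sum_le_sum h).trans ?_
  simp

private theorem om_gap {d : ℕ} (hd : 1 ≤ d) {a b : ℂ} (ha : a ^ d = 1) (hb : b ^ d = 1)
    (hab : a ≠ b) : 1 ≤ d * ‖a - b‖ := by
  have ha1 : ‖a‖ = 1 := Complex.norm_eq_one_of_pow_eq_one ha (by omega)
  have hb1 : ‖b‖ = 1 := Complex.norm_eq_one_of_pow_eq_one hb (by omega)
  have h0 : ∑ i ∈ Finset.range d, a ^ i * b ^ (d - 1 - i) = 0 := by
    have h1 := (Commute.all a b).geom_sum₂_mul d
    rw [ha, hb, sub_self] at h1
    exact (mul_eq_zero.1 h1).resolve_right (sub_ne_zero.2 hab)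
  have h2 : (d : ℂ) * a ^ (d - 1) =
      ∑ i ∈ Finset.range d, a ^ i * (a ^ (d - 1 - i) - b ^ (d - 1 - i)) := by
    have h3 : ∀ i ∈ Finset.range d, a ^ i * (a ^ (d - 1 - i) - b ^ (d - 1 - i)) =
        a ^ (d - 1) - a ^ i * b ^ (d - 1 - i) := by
      intro i hi
      rw [Finset.mem_range] at hi
      rw [mul_sub, ← pow_add]
      congr 2
      omega
    rw [Finset.sum_congr rfl h3, Finset.sum_sub_distrib, h0, sub_zero]
    simp
  have h4 : (d : ℝ) ≤ d * (d * ‖a - b‖) := by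
    have h5 : ‖(d : ℂ) * a ^ (d - 1)‖ = d := by
      rw [norm_mul, norm_pow, ha1, one_pow, mul_one]
      simp
    have h8 : (d : ℝ) ≤ ∑ i ∈ Finset.range d,
        ‖a ^ i * (a ^ (d - 1 - i) - b ^ (d - 1 - i))‖ := by
      calc (d : ℝ) = ‖(d : ℂ) * a ^ (d - 1)‖ := h5.symm
        _ = ‖∑ i ∈ Finset.range d, a ^ i * (a ^ (d - 1 - i) - b ^ (d - 1 - i))‖ := by rw [h2]
        _ ≤ _ := norm_sum_le _ _
    refine h8.trans ?_
    have h6 : ∀ i ∈ Finset.range d, ‖a ^ i * (a ^ (d - 1 - i) - b ^ (d - 1 - i))‖ ≤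
        d * ‖a - b‖ := by
      intro i hi
      rw [norm_mul, norm_pow, ha1, one_pow, one_mul]
      refine (om_pow_sub ha1 hb1 _).trans ?_
      refine mul_le_mul_of_nonneg_right ?_ (norm_nonneg _)
      have : d - 1 - i ≤ d := by omega
      exact_mod_cast this
    refine (Finset.sum_le_sum h6).trans ?_
    rw [Finset.sum_const, Finset.card_range, nsmul_eq_mul]
  have hd0 : (0 : ℝ) < d := by exact_mod_cast hd
  have h7 : (d : ℝ) * 1 ≤ d * (d * ‖a - b‖) := by linarith
  exact le_of_mul_le_mul_left h7 hd0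

/-- sums `∑ 2 ^ (i (d+1)) ω_i` over `d`-th roots of unity are distinct -/
theorem omega_inj {d : ℕ} (hd : 1 ≤ d) (w w' : Fin N → ℂ) (hw : ∀ i, w i ^ d = 1)
    (hw' : ∀ i, w' i ^ d = 1)
    (h : ∑ i : Fin N, (2 : ℂ) ^ ((i : ℕ) * (d + 1)) * w i =
      ∑ i : Fin N, (2 : ℂ) ^ ((i : ℕ) * (d + 1)) * w' i) : w = w' := by
  induction N with
  | zero => exact funext fun i => i.elim0
  | succ n ih =>
    rw [Fin.sum_univ_castSucc, Fin.sum_univ_castSucc] at h
    by_cases hl : w (Fin.last n) = w' (Fin.last n)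
    · rw [hl] at h
      have h1 := ih (fun i => w i.castSucc) (fun i => w' i.castSucc) (fun i => hw _)
        (fun i => hw' _) (by simpa using h)
      funext i
      refine Fin.lastCases hl (fun j => ?_) i
      exact congrFun h1 j
    · exfalso
      have hgap := om_gap hd (hw (Fin.last n)) (hw' (Fin.last n)) hl
      set δ := ‖w (Fin.last n) - w' (Fin.last n)‖ with hδ
      set B : ℝ := 2 ^ (d + 1) with hB
      have heq : (2 : ℂ) ^ (n * (d + 1)) * (w (Fin.last n) - w' (Fin.last n)) =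
          ∑ i : Fin n, (2 : ℂ) ^ ((i : ℕ) * (d + 1)) * (w' i.castSucc - w i.castSucc) := by
        simp only [mul_sub, Finset.sum_sub_distrib]
        simp only [Fin.val_last, Fin.val_castSucc] at h
        linear_combination h
      have h1 : B ^ n * δ ≤ ∑ i : Fin n, B ^ (i : ℕ) * 2 := by
        have h2 : B ^ n * δ =
            ‖(2 : ℂ) ^ (n * (d + 1)) * (w (Fin.last n) - w' (Fin.last n))‖ := by
          rw [norm_mul, norm_pow, ← hδ, hB, ← pow_mul, mul_comm (d + 1) n]
          simp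
        rw [h2, heq]
        refine (norm_sum_le _ _).trans (Finset.sum_le_sum fun i _ => ?_)
        rw [norm_mul, norm_pow]
        have h3 : ‖(2 : ℂ)‖ ^ ((i : ℕ) * (d + 1)) = B ^ (i : ℕ) := by
          rw [hB, ← pow_mul, mul_comm (d + 1) (i : ℕ)]
          simp
        rw [h3]
        refine mul_le_mul_of_nonneg_left ?_ (by positivity)
        refine (norm_sub_le _ _).trans ?_
        rw [Complex.norm_eq_one_of_pow_eq_one (hw' i.castSucc) (by omega),
          Complex.norm_eq_one_of_pow_eq_one (hw i.castSucc) (by omega)]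
        norm_num
      have h2 : (∑ i : Fin n, B ^ (i : ℕ) * 2) * (B - 1) = 2 * (B ^ n - 1) := by
        rw [Fin.sum_univ_eq_sum_range (fun i => B ^ i * 2) n, ← Finset.sum_mul,
          mul_assoc, mul_comm (2 : ℝ), ← mul_assoc, geom_sum_mul]
        ring
      have hBd : 2 * (d : ℝ) + 2 ≤ B := by
        have h3 : d + 1 ≤ 2 ^ d := Nat.lt_two_pow_self
        have h4 : ((d + 1 : ℕ) : ℝ) ≤ ((2 ^ d : ℕ) : ℝ) := by exact_mod_cast h3
        push_cast at h4
        rw [hB, pow_succ]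
        linarith
      have hd0 : (1 : ℝ) ≤ d := by exact_mod_cast hd
      have hBn : 0 < B ^ n := by positivity
      have h5 : B ^ n * δ * (B - 1) ≤ 2 * (B ^ n - 1) := by
        rw [← h2]
        exact mul_le_mul_of_nonneg_right h1 (by linarith)
      have h6 : δ * (B - 1) < 2 := by
        have h7 : B ^ n * (δ * (B - 1)) < B ^ n * 2 := by linarith
        exact lt_of_mul_lt_mul_left h7 hBn.le
      have hδ0 : 0 ≤ δ := norm_nonneg _
      have h8 : δ * (2 * d + 1) ≤ δ * (B - 1) := mul_le_mul_of_nonneg_left (by linarith) hδ0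
      linarith

end Vale.Agent.P337
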