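import Mathlib
import Vale.Agent.Lib.P337.Real.SystemB
import Vale.Agent.Lib.P337.Real.Omega

/-!
P337, real side: the critical values are distinct for `L = 0`, `s = 1`.
-/

namespace Vale.Agent.P337

open MvPolynomial

variable {N : ℕ}

/-- coefficients of the linear perturbation -/
def bs (s e : ℕ) (i : ℕ) : ℕ := s * 2 ^ (i * (2 * e - 1))

/-- a map with distinct values among the roots of a characteristic polynomial of matching size -/
theorem ndz_nodup_of_inj {n : Type} [Fintype n] [DecidableEq n] (M : Matrix n n ℂ)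
    (v : n → ℂ) (hv : Function.Injective v) (hr : ∀ a, M.charpoly.eval (v a) = 0) :
    M.charpoly.roots.Nodup := by
  classical
  have hne : M.charpoly ≠ 0 := (Matrix.charpoly_monic M).ne_zero
  have h1 : Finset.univ.image v ⊆ M.charpoly.roots.toFinset := by
    intro z hz
    obtain ⟨a, -, rfl⟩ := Finset.mem_image.mp hz
    rw [Multiset.mem_toFinset, Polynomial.mem_roots hne]
    exact hr a
  have h2 := Finset.card_le_card h1
  rw [Finset.card_image_of_injective _ hv, Finset.card_univ] at h2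
  have h3 : Multiset.card M.charpoly.roots ≤ Fintype.card n := by
    have := Polynomial.card_roots' M.charpoly
    rwa [Matrix.charpoly_natDegree_eq_dim] at this
  have h4 := Multiset.toFinset_card_le M.charpoly.roots
  exact Multiset.toFinset_card_eq_card_iff_nodup.mp (by omega)

/-- for `L = 0`, `s = 1` the characteristic polynomial has distinct roots -/
theorem nodup_zero {e : ℕ} (he : 2 ≤ e) (hd : 1 ≤ 2 * e - 1) (p : MvPolynomial (Fin N) ℂ)
    (hH : ∀ i, (gH (0 : ℂ) (fun i : Fin N => ((bs 1 e i : ℕ) : ℂ)) p i).totalDegree < 2 * e - 1) :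
    (mmat hd hH (gG e (0 : ℂ) (fun i : Fin N => ((bs 1 e i : ℕ) : ℂ)) p)).charpoly.roots.Nodup := by
  obtain ⟨d, hde⟩ : ∃ d, 2 * e = d + 1 := ⟨2 * e - 1, by omega⟩
  have hd2 : 2 * e - 1 = d := by omega
  have hd0 : d ≠ 0 := by omega
  have hodd : Odd d := ⟨e - 1, by omega⟩
  have hζ : IsPrimitiveRoot (Complex.exp (2 * Real.pi * Complex.I / d)) d :=
    Complex.isPrimitiveRoot_exp d hd0
  set ζ : ℂ := Complex.exp (2 * Real.pi * Complex.I / d) with hζdef
  -- roots of unity and the points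
  let w : (Fin N → Fin (2 * e - 1)) → Fin N → ℂ := fun a i => ζ ^ (a i : ℕ)
  let ξ : (Fin N → Fin (2 * e - 1)) → Fin N → ℂ := fun a i => -((2 : ℂ) ^ (i : ℕ) * w a i)
  have hw : ∀ a i, w a i ^ d = 1 := by
    intro a i
    show (ζ ^ (a i : ℕ)) ^ d = 1
    rw [← pow_mul, mul_comm, pow_mul, hζ.pow_eq_one, one_pow]
  have hξ : ∀ a i, ξ a i ^ d = -((2 : ℂ) ^ ((i : ℕ) * d)) := by
    intro a i
    show (-((2 : ℂ) ^ (i : ℕ) * w a i)) ^ d = _
    rw [hodd.neg_pow, mul_pow, hw, mul_one, ← pow_mul]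
  have hb : ∀ i : Fin N, (((bs 1 e i : ℕ) : ℂ)) = (2 : ℂ) ^ ((i : ℕ) * d) := by
    intro i
    simp [bs, hd2]
  -- the values of `g`
  have hval : ∀ a, eval (ξ a) (gG e (0 : ℂ) (fun i : Fin N => ((bs 1 e i : ℕ) : ℂ)) p) =
      -(d : ℂ) * ∑ i : Fin N, (2 : ℂ) ^ ((i : ℕ) * (d + 1)) * w a i := by
    intro a
    have h2e : (2 * (e : ℂ)) = (d : ℂ) + 1 := by exact_mod_cast hde
    simp only [gG, map_add, map_mul, map_sum, map_pow, eval_X, eval_C, mul_zero, zero_mul,
      zero_add, hb, hde, h2e]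
    rw [← Finset.sum_add_distrib, Finset.mul_sum]
    refine Finset.sum_congr rfl fun i _ => ?_
    rw [pow_succ, hξ a i]
    show -(2 : ℂ) ^ ((i : ℕ) * d) * (-((2 : ℂ) ^ (i : ℕ) * w a i)) +
      ((d : ℂ) + 1) * (2 : ℂ) ^ ((i : ℕ) * d) * (-((2 : ℂ) ^ (i : ℕ) * w a i)) = _
    rw [mul_add, mul_one, pow_add]
    ring
  refine ndz_nodup_of_inj _ (fun a => eval (ξ a)
    (gG e (0 : ℂ) (fun i : Fin N => ((bs 1 e i : ℕ) : ℂ)) p)) ?_ ?_
  · intro a a' haa
    simp only [hval] at haa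
    have hdc : -(d : ℂ) ≠ 0 := by
      rw [neg_ne_zero]
      exact_mod_cast hd0
    have h1 := mul_left_cancel₀ hdc haa
    have h2 := omega_inj (d := d) (by omega) (w a) (w a') (hw a) (hw a') h1
    funext i
    have h3 : ζ ^ (a i : ℕ) = ζ ^ (a' i : ℕ) := congrFun h2 i
    apply Fin.ext
    have ha : (a i : ℕ) < d := by have := (a i).2; omega
    have ha' : (a' i : ℕ) < d := by have := (a' i).2; omega
    exact hζ.pow_inj ha ha' h3
  · intro a
    refine mmat_eigen hd hH _ (ξ a) fun i => ?_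
    simp only [Fs, gH, map_sub, map_neg, map_mul, map_pow, eval_X, eval_C, zero_mul, neg_zero,
      hb, hd2, map_zero]
    rw [hξ a i]
    ring

end Vale.Agent.P337
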