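import Mathlib
import Vale.Agent.Lib.P337.Real.NodupZero
import Vale.Agent.Lib.P337.Real.Hank

/-!
P337, real side: for large parameters the critical values are distinct.
-/

namespace Vale.Agent.P337

open MvPolynomial

variable {N : ℕ}

/-- threshold for `s` -/
def thS (N e Q : ℕ) : ℕ :=
  ((2 * e - 1) ^ N * ((2 * e - 1) ^ N * thU N e Q 1 (2 ^ (N * (2 * e - 1))) ^
    (2 * (2 * e - 1) ^ N))) ^ ((2 * e - 1) ^ N) + 1

/-- threshold for `L` -/
def thL1 (N e Q s : ℕ) : ℕ :=
  ((2 * e - 1) ^ N * ((2 * e - 1) ^ N * thU N e Q 1 (s * 2 ^ (N * (2 * e - 1))) ^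
    (2 * (2 * e - 1) ^ N))) ^ ((2 * e - 1) ^ N) + 1

/-! ### integer polynomials at large integers -/

theorem generic_eval_ne_zero (f : Polynomial ℤ) (hf : f ≠ 0) {V : ℕ}
    (hV : pnorm (fun a : ℤ => |(a : ℝ)|) 1 f ≤ V) {x : ℤ} (hx : (V : ℤ) < x) :
    f.eval x ≠ 0 := by
  intro h0
  have hVn : (0 : ℤ) ≤ V := Int.natCast_nonneg V
  have hx0 : 0 < x := lt_of_le_of_lt hVn hx
  have hxr : (0 : ℝ) < x := by exact_mod_cast hx0
  have hx1 : (1 : ℝ) ≤ x := by exact_mod_cast hx0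
  set n := f.natDegree with hn
  have hlead : (1 : ℝ) ≤ |((f.coeff n : ℤ) : ℝ)| := by
    have h1 : f.coeff n ≠ 0 := by
      rw [hn, Polynomial.coeff_natDegree]
      exact Polynomial.leadingCoeff_ne_zero.mpr hf
    have h2 : (1 : ℤ) ≤ |f.coeff n| := Int.one_le_abs h1
    have h3 : ((1 : ℤ) : ℝ) ≤ ((|f.coeff n| : ℤ) : ℝ) := by exact_mod_cast h2
    rw [Int.cast_abs] at h3
    simpa using h3
  have hsum : pnorm (fun a : ℤ => |(a : ℝ)|) 1 f =
      ∑ i ∈ Finset.range (n + 1), |((f.coeff i : ℤ) : ℝ)| := by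
    unfold pnorm
    simp only [one_pow, mul_one]
    apply Finset.sum_subset
    · intro i hi
      rw [Finset.mem_range]
      have := Polynomial.le_natDegree_of_mem_supp i hi
      omega
    · intro i _ hi
      rw [Polynomial.notMem_support_iff.mp hi]
      simp
  have h1 : (f.eval x : ℤ) = ∑ i ∈ Finset.range (n + 1), f.coeff i * x ^ i :=
    Polynomial.eval_eq_sum_range x
  rw [h0, Finset.sum_range_succ] at h1
  have h2 : ((f.coeff n : ℤ) : ℝ) * (x : ℝ) ^ n =
      - ∑ i ∈ Finset.range n, ((f.coeff i : ℤ) : ℝ) * (x : ℝ) ^ i := by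
    have h3 := congrArg (fun z : ℤ => (z : ℝ)) h1
    push_cast at h3
    linarith
  have h3 : (x : ℝ) ^ n * |((f.coeff n : ℤ) : ℝ)| ≤
      ∑ i ∈ Finset.range n, |((f.coeff i : ℤ) : ℝ)| * (x : ℝ) ^ i := by
    have h4 : |((f.coeff n : ℤ) : ℝ) * (x : ℝ) ^ n| ≤
        ∑ i ∈ Finset.range n, |((f.coeff i : ℤ) : ℝ) * (x : ℝ) ^ i| := by
      rw [h2, abs_neg]
      exact Finset.abs_sum_le_sum_abs _ _
    rw [abs_mul, abs_of_pos (pow_pos hxr n)] at h4
    calc (x : ℝ) ^ n * |((f.coeff n : ℤ) : ℝ)| = |((f.coeff n : ℤ) : ℝ)| * (x : ℝ) ^ n := by ring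
      _ ≤ _ := h4
      _ = _ := by
        apply Finset.sum_congr rfl
        intro i _
        rw [abs_mul, abs_of_pos (pow_pos hxr i)]
  rcases Nat.eq_zero_or_pos n with hn0 | hn0
  · rw [hn0, pow_zero, one_mul, Finset.range_zero, Finset.sum_empty] at h3
    rw [hn0] at hlead
    linarith
  · obtain ⟨k, hk⟩ : ∃ k, n = k + 1 := ⟨n - 1, by omega⟩
    have h5 : ∑ i ∈ Finset.range n, |((f.coeff i : ℤ) : ℝ)| * (x : ℝ) ^ i ≤
        ∑ i ∈ Finset.range n, |((f.coeff i : ℤ) : ℝ)| * (x : ℝ) ^ k := by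
      apply Finset.sum_le_sum
      intro i hi
      apply mul_le_mul_of_nonneg_left _ (abs_nonneg _)
      apply pow_le_pow_right₀ hx1
      rw [Finset.mem_range] at hi
      omega
    rw [← Finset.sum_mul] at h5
    have h6 : ∑ i ∈ Finset.range n, |((f.coeff i : ℤ) : ℝ)| ≤ V := by
      refine le_trans ?_ hV
      rw [hsum, Finset.sum_range_succ]
      have := abs_nonneg ((f.coeff n : ℤ) : ℝ)
      linarith
    have h7 : (V : ℝ) < x := by exact_mod_cast hx
    have h8 : (0 : ℝ) < (x : ℝ) ^ k := pow_pos hxr k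
    have h9 : (x : ℝ) ^ n ≤ (x : ℝ) ^ n * |((f.coeff n : ℤ) : ℝ)| :=
      le_mul_of_one_le_right (pow_pos hxr n).le hlead
    have h10 : (x : ℝ) ^ n ≤ V * (x : ℝ) ^ k :=
      calc (x : ℝ) ^ n ≤ _ := h9
        _ ≤ _ := h3
        _ ≤ _ := h5
        _ ≤ V * (x : ℝ) ^ k := mul_le_mul_of_nonneg_right h6 h8.le
    rw [hk, pow_succ'] at h10
    have h11 := le_of_mul_le_mul_right h10 h8
    linarith

/-! ### base change -/

theorem generic_map {R R' : Type} [CommRing R] [CommRing R'] (φ : R →+* R') {e : ℕ}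
    (hd : 1 ≤ 2 * e - 1) {D : ℕ} {L : R} {b : Fin N → R} {p : MvPolynomial (Fin N) R}
    {L' : R'} {b' : Fin N → R'} {p' : MvPolynomial (Fin N) R'} (hL : φ L = L')
    (hb : ∀ i, φ (b i) = b' i) (hp : map φ p = p')
    (hH : ∀ i, (gH L b p i).totalDegree < 2 * e - 1)
    (hH' : ∀ i, (gH L' b' p' i).totalDegree < 2 * e - 1) :
    φ (hank D (mmat hd hH (gG e L b p))).det = (hank D (mmat hd hH' (gG e L' b' p'))).det := by
  have hb' : (fun i => φ (b i)) = b' := funext hb
  subst hL hp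
  subst hb'
  have key : ∀ (H' : Fin N → MvPolynomial (Fin N) R') (hH'' : ∀ i, (H' i).totalDegree < 2 * e - 1)
      (_ : H' = fun i => map φ (gH L b p i)),
      mmat hd hH'' (map φ (gG e L b p)) = (mmat hd hH (gG e L b p)).map φ := by
    intro H' hH'' hEq
    subst hEq
    exact mmat_map φ hd hH hH'' _
  have h1 := key (gH (φ L) (fun i => φ (b i)) (map φ p)) hH'
    (funext fun i => (gH_map φ L b p i).symm)
  rw [gG_map] at h1
  rw [h1, RingHom.map_det]
  congr 1
  ext i j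
  simp only [RingHom.mapMatrix_apply, Matrix.map_apply, hank, Matrix.of_apply]
  have h2 : (mmat hd hH (gG e L b p)).map φ = φ.mapMatrix (mmat hd hH (gG e L b p)) := rfl
  rw [h2, ← map_pow]
  simp only [Matrix.trace, Matrix.diag_apply, RingHom.mapMatrix_apply, Matrix.map_apply, map_sum]

/-! ### norms -/

theorem generic_wnorm_pow {R : Type} [CommRing R] {ν : R → ℝ} (hν : IsNrm ν) {t : ℝ}
    (ht : 0 ≤ t) (g : MvPolynomial (Fin N) R) (k : ℕ) :
    wnorm ν t (g ^ k) ≤ wnorm ν t g ^ k := by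
  induction k with
  | zero =>
    rw [pow_zero, pow_zero]
    have h1 := wnorm_monomial_le hν ht (0 : Fin N →₀ ℕ) (1 : R)
    have h2 : (monomial (0 : Fin N →₀ ℕ) (1 : R)) = 1 := rfl
    rw [h2] at h1
    refine h1.trans ?_
    simpa using hν.one
  | succ k ih =>
    rw [pow_succ, pow_succ]
    refine (wnorm_mul_le hν ht _ _).trans ?_
    exact mul_le_mul_of_nonneg_right ih (wnorm_nonneg hν ht g)

theorem generic_mmat_pow {R : Type} [CommRing R] {d : ℕ} (hd : 1 ≤ d)
    {H : Fin N → MvPolynomial (Fin N) R} (hH : ∀ i, (H i).totalDegree < d)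
    (g : MvPolynomial (Fin N) R) (k : ℕ) : mmat hd hH (g ^ k) = mmat hd hH g ^ k := by
  simp [mmat]

theorem one_le_thU (N e Q lam B : ℕ) : 1 ≤ thU N e Q lam B := by
  unfold thU
  apply Nat.mul_pos
  · omega
  · apply pow_pos
    omega

theorem generic_norm_le {R : Type} [CommRing R] {ν : R → ℝ} (hν : IsNrm ν) (φ : ℤ →+* R)
    (hφ : ∀ n : ℤ, ν (φ n) ≤ |(n : ℝ)|) {e : ℕ} (he : 2 ≤ e) (hd : 1 ≤ 2 * e - 1)
    {p : MvPolynomial (Fin N) ℤ} (hp : p.totalDegree < 2 * e) {Q B : ℕ} (hQ : l1 p ≤ Q)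
    {L : R} (hL : ν L ≤ 1) {b : Fin N → R} (hb : ∀ i, ν (b i) ≤ B)
    (hH : ∀ i, (gH L b (map φ p) i).totalDegree < 2 * e - 1) :
    ν (hank ((2 * e - 1) ^ N) (mmat hd hH (gG e L b (map φ p)))).det ≤
      ((((2 * e - 1) ^ N * ((2 * e - 1) ^ N * thU N e Q 1 B ^
        (2 * (2 * e - 1) ^ N))) ^ ((2 * e - 1) ^ N) : ℕ) : ℝ) := by
  set D : ℕ := (2 * e - 1) ^ N with hD
  set t : ℝ := ((2 * e * Q * 1 + B + 1 : ℕ) : ℝ) with ht
  have ht1 : 1 ≤ t := by
    rw [ht]
    exact_mod_cast Nat.le_add_left 1 _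
  have hL' : ν L ≤ ((1 : ℕ) : ℝ) := by simpa using hL
  have hw := wnorm_gH_le hν φ hφ he hp hQ hL' hb
  have hg := wnorm_gG_le hν φ hφ he hp hQ hL' hb
  have ht0 : 0 ≤ t := by linarith
  set g := gG e L b (map φ p) with hgdef
  have hU1 : (1 : ℝ) ≤ (thU N e Q 1 B : ℕ) := by exact_mod_cast one_le_thU N e Q 1 B
  have hentry : ∀ i j : Fin D, ν (hank D (mmat hd hH g) i j) ≤
      (D : ℝ) * ((thU N e Q 1 B : ℕ) : ℝ) ^ (2 * D) := by
    intro i j
    have h1 : hank D (mmat hd hH g) i j = (mmat hd hH (g ^ ((i : ℕ) + j))).trace := by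
      rw [generic_mmat_pow]
      rfl
    rw [h1]
    refine (mmat_trace_le hν ht1 hd hH hw _).trans ?_
    apply mul_le_mul_of_nonneg_left _ (Nat.cast_nonneg _)
    refine (generic_wnorm_pow hν ht0 g _).trans ?_
    refine (pow_le_pow_left₀ (wnorm_nonneg hν ht0 g) hg _).trans ?_
    apply pow_le_pow_right₀ hU1
    omega
  refine (det_le_prod hν _ (fun _ => 1) (fun _ => one_pos)).trans ?_
  have h2 : ∀ b : Fin D, ∑ a : Fin D, ν (hank D (mmat hd hH g) a b) * 1 / 1 ≤
      (D : ℝ) * ((D : ℝ) * ((thU N e Q 1 B : ℕ) : ℝ) ^ (2 * D)) := by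
    intro b
    calc ∑ a : Fin D, ν (hank D (mmat hd hH g) a b) * 1 / 1
        ≤ ∑ a : Fin D, (D : ℝ) * ((thU N e Q 1 B : ℕ) : ℝ) ^ (2 * D) := by
          apply Finset.sum_le_sum
          intro a _
          rw [mul_one, div_one]
          exact hentry a b
      _ = _ := by
          rw [Finset.sum_const, Finset.card_univ, Fintype.card_fin, nsmul_eq_mul]
  calc ∏ b : Fin D, ∑ a : Fin D, ν (hank D (mmat hd hH g) a b) * 1 / 1
      ≤ ∏ b : Fin D, (D : ℝ) * ((D : ℝ) * ((thU N e Q 1 B : ℕ) : ℝ) ^ (2 * D)) := by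
        apply Finset.prod_le_prod
        · intro b _
          apply Finset.sum_nonneg
          intro a _
          rw [mul_one, div_one]
          exact hν.nonneg _
        · intro b _
          exact h2 b
    _ = _ := by
        rw [Finset.prod_const, Finset.card_univ, Fintype.card_fin]
        push_cast
        rfl

theorem generic_pnorm_monomial {R : Type} [CommRing R] {ν : R → ℝ} (hν : IsNrm ν) (k : ℕ)
    (c : R) : pnorm ν 1 (Polynomial.monomial k c) ≤ ν c := by
  unfold pnorm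
  by_cases hc : c = 0
  · rw [hc]
    simp [hν.nonneg]
  · rw [Polynomial.support_monomial k hc]
    simp

theorem generic_pnorm_C {R : Type} [CommRing R] {ν : R → ℝ} (hν : IsNrm ν) (c : R) :
    pnorm ν 1 (Polynomial.C c) ≤ ν c := generic_pnorm_monomial hν 0 c

theorem generic_pnorm_X {R : Type} [CommRing R] {ν : R → ℝ} (hν : IsNrm ν) :
    pnorm ν 1 (Polynomial.X : Polynomial R) ≤ 1 :=
  (generic_pnorm_monomial hν 1 1).trans hν.one

theorem generic_coeff_le {R : Type} [CommRing R] {ν : R → ℝ} (hν : IsNrm ν) (G : Polynomial R)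
    (k : ℕ) : ν (G.coeff k) ≤ pnorm ν 1 G := by
  unfold pnorm
  by_cases hk : k ∈ G.support
  · have h1 : ν (G.coeff k) = ν (G.coeff k) * 1 ^ k := by simp
    rw [h1]
    exact Finset.single_le_sum (f := fun i => ν (G.coeff i) * 1 ^ i)
      (fun i _ => mul_nonneg (hν.nonneg _) (by simp)) hk
  · rw [Polynomial.notMem_support_iff.mp hk, hν.zero]
    exact Finset.sum_nonneg fun i _ => mul_nonneg (hν.nonneg _) (by simp)

theorem generic_nodup {e : ℕ} (he : 2 ≤ e) (hd : 1 ≤ 2 * e - 1) {p : MvPolynomial (Fin N) ℤ}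
    (hp : p.totalDegree < 2 * e) {Q : ℕ} (hQ : l1 p ≤ Q) {s L : ℕ} (hs : thS N e Q < s)
    (hL : thL1 N e Q s < L)
    (hH : ∀ i, (gH (L : ℂ) (fun i : Fin N => ((bs s e i : ℕ) : ℂ))
      (map (Int.castRingHom ℂ) p) i).totalDegree < 2 * e - 1) :
    (mmat hd hH (gG e (L : ℂ) (fun i : Fin N => ((bs s e i : ℕ) : ℂ))
      (map (Int.castRingHom ℂ) p))).charpoly.roots.Nodup := by
  set D : ℕ := (2 * e - 1) ^ N with hD
  have hcard : Fintype.card (Fin N → Fin (2 * e - 1)) = D := by simp [hD]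
  -- norms
  set ν0 : ℤ → ℝ := fun a : ℤ => |(a : ℝ)| with hν0
  have h0 : IsNrm ν0 := isNrm_int
  have h1 : IsNrm (pnorm ν0 1) := isNrm_pnorm h0 zero_le_one
  have h2 : IsNrm (pnorm (pnorm ν0 1) 1) := isNrm_pnorm h1 zero_le_one
  -- degrees
  have hdeg : ∀ (R : Type) [CommRing R] (φ : ℤ →+* R), (map φ p).totalDegree < 2 * e := by
    intro R _ φ
    refine lt_of_le_of_lt ?_ hp
    exact Finset.sup_mono (support_map_subset _ _)
  -- the ring of polynomials in s and L
  set bA : Fin N → Polynomial (Polynomial ℤ) := fun i =>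
    Polynomial.C (Polynomial.monomial 1 ((2 : ℤ) ^ ((i : ℕ) * (2 * e - 1)))) with hbA
  set φA : ℤ →+* Polynomial (Polynomial ℤ) := Polynomial.C.comp Polynomial.C with hφA
  have hHA : ∀ i, (gH (Polynomial.X : Polynomial (Polynomial ℤ)) bA (map φA p) i).totalDegree < 2 * e - 1 :=
    gH_totalDegree he _ _ (hdeg _ φA)
  set G : Polynomial (Polynomial ℤ) := (hank D (mmat hd hHA (gG e (Polynomial.X : Polynomial (Polynomial ℤ)) bA (map φA p)))).det with hG
  -- the polynomial does not vanish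
  have hG0 : G ≠ 0 := by
    intro hG'
    set φ : Polynomial (Polynomial ℤ) →+* ℂ := Polynomial.eval₂RingHom
      (Polynomial.eval₂RingHom (Int.castRingHom ℂ) 1) 0 with hφ
    have hH1 : ∀ i, (gH (0 : ℂ) (fun i : Fin N => ((bs 1 e i : ℕ) : ℂ))
        (map (Int.castRingHom ℂ) p) i).totalDegree < 2 * e - 1 :=
      gH_totalDegree he _ _ (hdeg ℂ _)
    have h3 := nodup_zero he hd (map (Int.castRingHom ℂ) p) hH1
    have h4 := (hank_det_ne_zero_iff hcard _).mpr h3
    apply h4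
    have h5 := generic_map (D := D) φ hd (L := (Polynomial.X : Polynomial (Polynomial ℤ))) (b := bA) (p := map φA p)
      (L' := (0 : ℂ)) (b' := fun i : Fin N => ((bs 1 e i : ℕ) : ℂ))
      (p' := map (Int.castRingHom ℂ) p) (by simp [hφ])
      (by
        intro i
        simp [hφ, hbA, bs, Polynomial.eval₂_monomial])
      (by
        rw [map_map, RingHom.ext_int (φ.comp φA) (Int.castRingHom ℂ)]) hHA hH1
    rw [← h5, ← hG, hG', map_zero]
  -- norm of the polynomial
  have hGn := generic_norm_le (B := 2 ^ (N * (2 * e - 1))) h2 φA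
    (by
      intro n
      exact (generic_pnorm_C h1 _).trans (generic_pnorm_C h0 _)) he hd hp hQ
    (L := (Polynomial.X : Polynomial (Polynomial ℤ))) (generic_pnorm_X h1) (b := bA)
    (by
      intro i
      refine (generic_pnorm_C h1 _).trans ((generic_pnorm_monomial h0 _ _).trans ?_)
      have h3 : ν0 ((2 : ℤ) ^ ((i : ℕ) * (2 * e - 1))) = (2 : ℝ) ^ ((i : ℕ) * (2 * e - 1)) := by
        simp [hν0]
      rw [h3]
      push_cast
      apply pow_le_pow_right₀ (by norm_num)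
      exact Nat.mul_le_mul_right _ i.2.le) hHA
  rw [← hG] at hGn
  -- the polynomial in L
  set ψ : Polynomial (Polynomial ℤ) →+* Polynomial ℤ := Polynomial.mapRingHom (Polynomial.evalRingHom (s : ℤ)) with hψ
  have hψG : ψ G ≠ 0 := by
    intro hz
    have h3 : G.leadingCoeff ≠ 0 := Polynomial.leadingCoeff_ne_zero.mpr hG0
    have h4 : pnorm ν0 1 G.leadingCoeff ≤
        ((((2 * e - 1) ^ N * ((2 * e - 1) ^ N * thU N e Q 1 (2 ^ (N * (2 * e - 1))) ^
        (2 * (2 * e - 1) ^ N))) ^ ((2 * e - 1) ^ N) : ℕ) : ℝ) :=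
      (generic_coeff_le h1 G G.natDegree).trans hGn
    have h5 := generic_eval_ne_zero G.leadingCoeff h3 h4 (x := (s : ℤ)) (by
      have h6 : ((2 * e - 1) ^ N * ((2 * e - 1) ^ N * thU N e Q 1 (2 ^ (N * (2 * e - 1))) ^
        (2 * (2 * e - 1) ^ N))) ^ ((2 * e - 1) ^ N) < s := by
        unfold thS at hs
        omega
      exact_mod_cast h6)
    apply h5
    have h6 := congrArg (fun f : Polynomial ℤ => f.coeff G.natDegree) hz
    simpa [hψ, Polynomial.coeff_map] using h6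
  set b1 : Fin N → Polynomial ℤ := fun i => Polynomial.C ((bs s e i : ℕ) : ℤ) with hb1
  have hH1 : ∀ i, (gH (Polynomial.X : Polynomial ℤ) b1 (map Polynomial.C p) i).totalDegree <
      2 * e - 1 := gH_totalDegree he _ _ (hdeg _ _)
  have hP := generic_map (D := D) ψ hd (L := (Polynomial.X : Polynomial (Polynomial ℤ))) (b := bA) (p := map φA p)
      (L' := (Polynomial.X : Polynomial ℤ)) (b' := b1)
      (p' := map Polynomial.C p) (by simp [hψ])
      (by
        intro i
        simp only [hψ, hbA, hb1, bs, Polynomial.coe_mapRingHom, Polynomial.map_C,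
          Polynomial.coe_evalRingHom, Polynomial.eval_monomial]
        rw [pow_one]
        congr 1
        push_cast
        ring)
      (by
        rw [map_map, RingHom.ext_int (ψ.comp φA) Polynomial.C]) hHA hH1
  rw [← hG] at hP
  have hPn := generic_norm_le (B := s * 2 ^ (N * (2 * e - 1))) h1 Polynomial.C
    (by
      intro n
      exact generic_pnorm_C h0 _) he hd hp hQ
    (L := (Polynomial.X : Polynomial ℤ)) (generic_pnorm_X h0) (b := b1)
    (by
      intro i
      refine (generic_pnorm_C h0 _).trans ?_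
      have h3 : ν0 ((bs s e i : ℕ) : ℤ) = (s : ℝ) * (2 : ℝ) ^ ((i : ℕ) * (2 * e - 1)) := by
        simp only [hν0, bs]
        push_cast
        rw [abs_of_nonneg (by positivity)]
      rw [h3]
      push_cast
      apply mul_le_mul_of_nonneg_left _ (Nat.cast_nonneg _)
      apply pow_le_pow_right₀ (by norm_num)
      exact Nat.mul_le_mul_right _ i.2.le) hH1
  rw [← hD, ← hP] at hPn
  have h3 := generic_eval_ne_zero (ψ G) hψG hPn (x := (L : ℤ)) (by
      have h6 : (D * (D * thU N e Q 1 (s * 2 ^ (N * (2 * e - 1))) ^ (2 * D))) ^ D < L := by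
        unfold thL1 at hL
        rw [← hD] at hL
        omega
      exact_mod_cast h6)
  -- complex numbers
  apply (hank_det_ne_zero_iff hcard _).mp
  set χ : Polynomial ℤ →+* ℂ := Polynomial.eval₂RingHom (Int.castRingHom ℂ) (L : ℂ) with hχ
  have h5 := generic_map (D := D) χ hd (L := (Polynomial.X : Polynomial ℤ)) (b := b1)
      (p := map Polynomial.C p)
      (L' := (L : ℂ)) (b' := fun i : Fin N => ((bs s e i : ℕ) : ℂ))
      (p' := map (Int.castRingHom ℂ) p) (by simp [hχ])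
      (by
        intro i
        simp [hχ, hb1])
      (by
        rw [map_map, RingHom.ext_int (χ.comp Polynomial.C) (Int.castRingHom ℂ)]) hH1 hH
  rw [← h5, ← hP]
  have h6 : χ (ψ G) = (((ψ G).eval (L : ℤ) : ℤ) : ℂ) := by
    simp [hχ]
  rw [h6]
  exact_mod_cast h3

end Vale.Agent.P337
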